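import Mathlib

/-!
Definitions for the spin-n/2 Heisenberg ferromagnet on finite boxes.
-/

namespace Vale.Agent.P361

open scoped Matrix BigOperators

/-- Local matrix of the third spin component for spin n/2, basis m = n/2 - i. -/
noncomputable def spinZ (n : ℕ) : Matrix (Fin (n + 1)) (Fin (n + 1)) ℂ :=
  Matrix.diagonal fun i => ((((n : ℝ) / 2 - (i : ℕ)) : ℝ) : ℂ)

/-- Raising operator S¹ + i S² in the basis m = n/2 - i. -/
noncomputable def spinUp (n : ℕ) : Matrix (Fin (n + 1)) (Fin (n + 1)) ℂ :=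
  fun i j => if (i : ℕ) + 1 = (j : ℕ) then
    ((Real.sqrt ((j : ℕ) * ((n : ℝ) + 1 - (j : ℕ))) : ℝ) : ℂ) else 0

/-- Lowering operator S¹ - i S², the adjoint of the raising operator. -/
noncomputable def spinDown (n : ℕ) : Matrix (Fin (n + 1)) (Fin (n + 1)) ℂ :=
  (spinUp n)ᴴ

/-- Local matrix of the first spin component. -/
noncomputable def spinX (n : ℕ) : Matrix (Fin (n + 1)) (Fin (n + 1)) ℂ :=
  (1 / 2 : ℂ) • (spinUp n + spinDown n)

/-- Local matrix of the second spin component. -/
noncomputable def spinY (n : ℕ) : Matrix (Fin (n + 1)) (Fin (n + 1)) ℂ :=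
  (-(Complex.I / 2)) • (spinUp n - spinDown n)

/-- Basis labels of the tensor product space over the sites Λ. -/
abbrev Config (Λ : Type*) (n : ℕ) := Λ → Fin (n + 1)

/-- The operator acting as A on the tensor factor x and as the identity elsewhere. -/
noncomputable def siteOp {Λ : Type*} [Fintype Λ] [DecidableEq Λ] {n : ℕ} (x : Λ)
    (A : Matrix (Fin (n + 1)) (Fin (n + 1)) ℂ) : Matrix (Config Λ n) (Config Λ n) ℂ :=
  fun σ τ => if ∀ y, y ≠ x → σ y = τ y then A (σ x) (τ x) else 0

/-- The exchange operator S_x · S_y. -/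
noncomputable def exchange {Λ : Type*} [Fintype Λ] [DecidableEq Λ] (n : ℕ) (x y : Λ) :
    Matrix (Config Λ n) (Config Λ n) ℂ :=
  siteOp x (spinX n) * siteOp y (spinX n) + siteOp x (spinY n) * siteOp y (spinY n)
    + siteOp x (spinZ n) * siteOp y (spinZ n)

open Classical in
/-- The ferromagnetic Hamiltonian of a graph; ordered pairs are summed, hence the factor 1/2. -/
noncomputable def hamiltonian {Λ : Type*} [Fintype Λ] [DecidableEq Λ] (n : ℕ)
    (adj : Λ → Λ → Prop) : Matrix (Config Λ n) (Config Λ n) ℂ :=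
  (-(1 / 2) : ℂ) • ∑ x, ∑ y, if adj x y then exchange n x y else 0

/-- The total third spin component. -/
noncomputable def magnetization {Λ : Type*} [Fintype Λ] [DecidableEq Λ] (n : ℕ) :
    Matrix (Config Λ n) (Config Λ n) ℂ :=
  ∑ x, siteOp x (spinZ n)

/-- The sites of the box [-N, N]³, written with coordinates in 0, …, 2N. -/
abbrev Box (L : ℕ) := Fin 3 → Fin L

/-- Nearest neighbours: coordinate ℓ¹ distance one (free boundary conditions). -/
def boxAdj (L : ℕ) (x y : Box L) : Prop :=
  ∑ j, |((x j : ℕ) : ℤ) - ((y j : ℕ) : ℤ)| = 1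

/-- The operator H - hM on the box with side L. -/
noncomputable def fieldHamiltonian (n L : ℕ) (h : ℝ) :
    Matrix (Config (Box L) n) (Config (Box L) n) ℂ :=
  hamiltonian n (boxAdj L) - (h : ℂ) • magnetization n

/-- (β |Λ_N|)⁻¹ log Tr exp(-β (H_N - h M_N)). -/
noncomputable def finitePressure (n N : ℕ) (β h : ℝ) : ℝ :=
  Real.log ((NormedSpace.exp ((-β : ℂ) • fieldHamiltonian n (2 * N + 1) h)).trace).re
    / (β * (((2 * N + 1 : ℕ) : ℝ) ^ 3))

/-- The infinite-volume pressure. -/
noncomputable def pressure (n : ℕ) (β h : ℝ) : ℝ :=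
  Filter.limUnder Filter.atTop fun N => finitePressure n N β h

/-- The spontaneous magnetization: the right derivative of the pressure at zero field. -/
noncomputable def spontMag (n : ℕ) (β : ℝ) : ℝ :=
  derivWithin (pressure n β) (Set.Ioi 0) 0

end Vale.Agent.P361
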