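import Vale.Agent.P361.Spin

/-!
Gibbs expectations and the summed Falk-Bruch bound on a finite graph.
-/

namespace Vale.Agent.P361

open scoped Matrix BigOperators
open Matrix

variable {Λ : Type*} [Fintype Λ] [DecidableEq Λ] {n : ℕ}

/-- The exponent -β (H - h M). -/
noncomputable def gK (n : ℕ) (adj : Λ → Λ → Prop) (β h : ℝ) :
    Matrix (Config Λ n) (Config Λ n) ℂ :=
  (-β : ℂ) • (hamiltonian n adj - (h : ℂ) • magnetization n)

lemma gK_isHermitian {adj : Λ → Λ → Prop} (hirr : ∀ x, ¬ adj x x) (β h : ℝ) :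
    (gK n adj β h).IsHermitian := by
  simp [gK, Matrix.IsHermitian, Matrix.conjTranspose_smul, Matrix.conjTranspose_sub,
    (hamiltonian_isHermitian (n := n) hirr).eq,
    (magnetization_isHermitian (Λ := Λ) (n := n)).eq]

variable {K : Matrix (Config Λ n) (Config Λ n) ℂ}

lemma gibbs_siteDiag_le (hK : K.IsHermitian) (x : Λ) {d : Fin (n + 1) → ℝ} {c : ℝ}
    (hd : ∀ i, d i ≤ c) : gibbs K (siteOp x (diagonal fun i => (d i : ℂ))) ≤ c := by
  rw [siteOp_diagonal]
  exact gibbs_diagonal_le hK fun σ => hd (σ x)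

lemma gibbs_Z_le (hK : K.IsHermitian) (x : Λ) : gibbs K (opZ n x) ≤ (n : ℝ) / 2 := by
  refine gibbs_siteDiag_le hK x fun i => ?_
  simp

lemma gibbs_lin (hK : K.IsHermitian) (x : Λ) (A : Matrix (Fin (n + 1)) (Fin (n + 1)) ℂ)
    (d : Fin (n + 1) → ℝ) (hA : A = diagonal fun i => (d i : ℂ)) (r c : ℝ)
    (hd : ∀ i : Fin (n + 1), d i + r * ((n : ℝ) / 2 - (i : ℕ)) ≤ c) :
    gibbs K (siteOp x A) + r * gibbs K (opZ n x) ≤ c := by
  have h := gibbs_siteDiag_le hK x hd
  rw [← gibbs_smul, ← siteOp_smul, ← gibbs_add, ← siteOp_add]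
  convert h using 3
  rw [hA, spinZ]
  ext i k
  by_cases hik : i = k
  · subst hik; simp
  · simp [hik]

lemma gibbs_DU_le (hK : K.IsHermitian) (x : Λ) :
    gibbs K (opD n x * opU n x) ≤ ((n : ℝ) + 1) * ((n : ℝ) / 2 - gibbs K (opZ n x)) := by
  rw [opD, opU, siteOp_mul]
  have := gibbs_lin hK x _ _ (down_mul_up n) ((n : ℝ) + 1) (((n : ℝ) + 1) * ((n : ℝ) / 2))
    (fun i => by nlinarith [mul_self_nonneg (((i : ℕ) : ℝ))])
  linarith

lemma gibbs_UDDU_le (hK : K.IsHermitian) (x : Λ) :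
    gibbs K (opU n x * opD n x + opD n x * opU n x)
      ≤ (n : ℝ) ^ 2 - 2 * ((n : ℝ) - 1) * gibbs K (opZ n x) := by
  rw [opU, opD, siteOp_mul, siteOp_mul, ← siteOp_add]
  have e : spinUp n * spinDown n + spinDown n * spinUp n = diagonal fun i : Fin (n + 1) =>
      ((((((i : ℕ) : ℝ)) + 1) * ((n : ℝ) - (i : ℕ)) + ((i : ℕ) : ℝ) * ((n : ℝ) + 1 - (i : ℕ)) : ℝ)
        : ℂ) := by
    rw [up_mul_down, down_mul_up, Matrix.diagonal_add]
    push_cast
    rfl
  have := gibbs_lin hK x _ _ e (2 * ((n : ℝ) - 1)) ((n : ℝ) ^ 2) (fun i => by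
    have h : ((i : ℕ) : ℝ) ≤ ((i : ℕ) : ℝ) ^ 2 := by exact_mod_cast Nat.le_self_pow two_ne_zero _
    nlinarith)
  linarith

lemma gibbs_ZZ_le (hK : K.IsHermitian) (x y : Λ) :
    gibbs K (opZ n x * opZ n y) ≤ (n : ℝ) ^ 2 / 4 := by
  rw [opZ, opZ, spinZ, siteOp_diagonal, siteOp_diagonal, Matrix.diagonal_mul_diagonal]
  simp only [← Complex.ofReal_mul]
  refine gibbs_diagonal_le hK fun σ => ?_
  have h1 : ((σ x : ℕ) : ℝ) ≤ n := by exact_mod_cast Nat.lt_succ_iff.1 (σ x).isLt
  have h2 : ((σ y : ℕ) : ℝ) ≤ n := by exact_mod_cast Nat.lt_succ_iff.1 (σ y).isLt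
  have h3 : (0 : ℝ) ≤ ((σ x : ℕ) : ℝ) := Nat.cast_nonneg _
  have h4 : (0 : ℝ) ≤ ((σ y : ℕ) : ℝ) := Nat.cast_nonneg _
  nlinarith [mul_nonneg h3 (sub_nonneg.2 h2), mul_nonneg h4 (sub_nonneg.2 h1)]

lemma gibbs_hop_le (hK : K.IsHermitian) {x y : Λ} (hxy : x ≠ y) :
    gibbs K (opD n x * opU n y + opU n x * opD n y)
      ≤ gibbs K (opD n x * opU n x) + gibbs K (opD n y * opU n y) := by
  have h := gibbs_star_mul_self hK (opU n x - opU n y)
  have e : (opU n x - opU n y)ᴴ * (opU n x - opU n y)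
      = (opD n x * opU n x + opD n y * opU n y)
        - (opD n x * opU n y + opU n x * opD n y) := by
    simp only [opU, opD, Matrix.conjTranspose_sub, siteOp_conjTranspose, spinDown, sub_mul, mul_sub,
      siteOp_comm hxy]
    abel
  rw [e, gibbs_sub, gibbs_add] at h
  linarith

lemma gibbs_bond_le (hK : K.IsHermitian) {x y : Λ} (hxy : x ≠ y) :
    gibbs K (opD n x * opU n y + opU n x * opD n y + ((4 : ℝ) : ℂ) • (opZ n x * opZ n y))
      ≤ (n : ℝ) ^ 2 + ((n : ℝ) + 1)
          * (((n : ℝ) / 2 - gibbs K (opZ n x)) + ((n : ℝ) / 2 - gibbs K (opZ n y))) := by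
  rw [gibbs_add, gibbs_smul]
  have h1 := gibbs_hop_le hK hxy
  have h2 := gibbs_DU_le hK x
  have h3 := gibbs_DU_le hK y
  have h4 := gibbs_ZZ_le hK x y
  linarith

open Classical in
/-- Upper bound for the summed double commutators of a phase and its conjugate. -/
noncomputable def hopBound (n : ℕ) (adj : Λ → Λ → Prop)
    (K : Matrix (Config Λ n) (Config Λ n) ℂ) (a : Λ → ℂ) : ℝ :=
  (1 / 2) * ∑ x, ∑ y, if adj x y then Complex.normSq (a x - a y) * ((n : ℝ) ^ 2 + ((n : ℝ) + 1)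
    * (((n : ℝ) / 2 - gibbs K (opZ n x)) + ((n : ℝ) / 2 - gibbs K (opZ n y)))) else 0

lemma double_comm_le {adj : Λ → Λ → Prop} (hirr : ∀ x, ¬ adj x x) (hK : K.IsHermitian)
    (a : Λ → ℂ) (ha : ∀ x, Complex.normSq (a x) = 1) :
    gibbs K (cm (cm (wave n a) (hamiltonian n adj)) (wave n a)ᴴ)
      + gibbs K (cm (cm (wave n (star a)) (hamiltonian n adj)) (wave n (star a))ᴴ)
      ≤ hopBound n adj K a := by
  classical
  rw [← gibbs_add]
  have e : cm (cm (wave n a) (hamiltonian n adj)) (wave n a)ᴴ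
      + cm (cm (wave n (star a)) (hamiltonian n adj)) (wave n (star a))ᴴ
      = ((1 / 2 : ℝ) : ℂ) • ∑ x, ∑ y, (if adj x y then (Complex.normSq (a x - a y) : ℂ) •
        (opD n x * opU n y + opU n x * opD n y + ((4 : ℝ) : ℂ) • (opZ n x * opZ n y)) else 0) := by
    simp only [hamiltonian, cm_smul_right, cm_sum_right, cm_smul_left, cm_sum_left]
    rw [← smul_add, ← Finset.sum_add_distrib,
      show ((1 / 2 : ℝ) : ℂ) = (-(1 / 2) : ℂ) * (-1) by simp, mul_smul, neg_one_smul,
      ← Finset.sum_neg_distrib]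
    congr 1
    refine Finset.sum_congr rfl fun x _ => ?_
    rw [← Finset.sum_add_distrib, ← Finset.sum_neg_distrib]
    refine Finset.sum_congr rfl fun y _ => ?_
    split_ifs with h
    · exact cm_cm_pair a (fun e => hirr x (e ▸ h)) (ha x) (ha y)
    · simp [cm]
  rw [e, gibbs_smul, gibbs_sum, hopBound]
  refine mul_le_mul_of_nonneg_left (Finset.sum_le_sum fun x _ => ?_) (by norm_num)
  rw [gibbs_sum]
  refine Finset.sum_le_sum fun y _ => ?_
  split_ifs with h
  · rw [gibbs_smul]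
    exact mul_le_mul_of_nonneg_left (gibbs_bond_le hK (fun e => hirr x (e ▸ h)))
      (Complex.normSq_nonneg _)
  · rw [gibbs_zero]

lemma sum_wave_mul {P : Type*} [Fintype P] (a : P → Λ → ℂ) (V : ℂ)
    (horth : ∀ x y, ∑ p, a p x * star (a p y) = if x = y then V else 0) :
    ∑ p, (wave n (a p) * (wave n (a p))ᴴ + (wave n (a p))ᴴ * wave n (a p))
      = V • ∑ x, (opU n x * opD n x + opD n x * opU n x) := by
  have e : ∀ p, wave n (a p) * (wave n (a p))ᴴ + (wave n (a p))ᴴ * wave n (a p)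
      = ∑ x, ∑ y, (a p x * star (a p y)) • (opU n x * opD n y + opD n y * opU n x) := by
    intro p
    rw [wave_conjTranspose, wave, Finset.sum_mul_sum, Finset.sum_mul_sum]
    nth_rewrite 2 [Finset.sum_comm]
    rw [← Finset.sum_add_distrib]
    refine Finset.sum_congr rfl fun x _ => ?_
    rw [← Finset.sum_add_distrib]
    refine Finset.sum_congr rfl fun y _ => ?_
    simp only [smul_mul_assoc, mul_smul_comm, smul_smul, smul_add, mul_comm (star (a p y))]
  simp only [e]
  rw [Finset.sum_comm, Finset.smul_sum]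
  refine Finset.sum_congr rfl fun x _ => ?_
  rw [Finset.sum_comm]
  simp only [← Finset.sum_smul, horth]
  simp [Finset.sum_ite_eq, ite_smul, smul_add, Finset.sum_add_distrib]

/-- The Falk-Bruch inequality summed over a complete orthogonal family of phases. -/
theorem graph_bound {adj : Λ → Λ → Prop} (hirr : ∀ x, ¬ adj x x) {β h : ℝ} {P : Type*} [Fintype P]
    (a : P → Λ → ℂ) (ha : ∀ p x, Complex.normSq (a p x) = 1) (V : ℝ) (hV : 0 ≤ V)
    (horth : ∀ x y, ∑ p, a p x * star (a p y) = if x = y then (V : ℂ) else 0)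
    (x₀ : P → ℝ) (hx₀ : ∀ p, 0 < x₀ p) (hβ : 0 ≤ β)
    (hbd : ∀ p, β * (hopBound n adj (gK n adj β h) (a p)
      + 4 * h * gibbs (gK n adj β h) (magnetization n)) / 2
      ≤ 4 * gibbs (gK n adj β h) (magnetization n) * x₀ p) :
    gibbs (gK n adj β h) (magnetization n) * ∑ p, Real.cosh (x₀ p) / Real.sinh (x₀ p)
      ≤ V * ((n : ℝ) ^ 2 / 2 * (Fintype.card Λ : ℝ)
          - ((n : ℝ) - 1) * gibbs (gK n adj β h) (magnetization n)) := by
  set K := gK n adj β h with hKdef
  set m := gibbs K (magnetization n) with hm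
  have hK : K.IsHermitian := gK_isHermitian hirr β h
  set g : (Λ → ℂ) → ℝ := fun c => gibbs K (wave n c * (wave n c)ᴴ + (wave n c)ᴴ * wave n c)
    with hg
  set d : (Λ → ℂ) → ℝ := fun c => gibbs K (cm (cm (wave n c) (hamiltonian n adj)) (wave n c)ᴴ)
    with hd
  have one : ∀ (c : Λ → ℂ), (∀ x, Complex.normSq (c x) = 1) → ∀ t : ℝ, 0 < t →
      (Real.cosh t / Real.sinh t + t / Real.sinh t ^ 2) * (2 * m)
        - β * (d c + 2 * h * m) / (2 * Real.sinh t ^ 2) ≤ g c := by
    intro c hc t ht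
    have fb := falk_bruch hK (wave n c) ht
    have e1 : wave n c * (wave n c)ᴴ - (wave n c)ᴴ * wave n c
        = ((2 : ℝ) : ℂ) • magnetization n := by
      have := cm_wave_wave (n := n) c
      rw [cm] at this
      rw [this, magnetization, Finset.smul_sum]
      simp [hc]
    have e2 : cm K (wave n c) =
        (β : ℂ) • (cm (wave n c) (hamiltonian n adj) + (h : ℂ) • wave n c) := by
      have := cm_wave_magnetization (n := n) c
      simp only [cm, neg_eq_iff_eq_neg] at this ⊢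
      simp only [hKdef, gK, smul_mul_assoc, mul_smul_comm, sub_mul, mul_sub, smul_sub]
      linear_combination (norm := module) ((β * h : ℝ) : ℂ) • (congrArg (fun X => -X) this)
    have e3 : (K * wave n c - wave n c * K) * (wave n c)ᴴ
        - (wave n c)ᴴ * (K * wave n c - wave n c * K)
        = (β : ℂ) • (cm (cm (wave n c) (hamiltonian n adj)) (wave n c)ᴴ
          + ((2 * h : ℝ) : ℂ) • magnetization n) := by
      have h0 : cm (cm K (wave n c)) (wave n c)ᴴ =
          (β : ℂ) • (cm (cm (wave n c) (hamiltonian n adj)) (wave n c)ᴴ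
            + (h : ℂ) • cm (wave n c) (wave n c)ᴴ) := by
        rw [e2, cm_smul_left, cm_add_left, cm_smul_left]
      rw [show cm (wave n c) (wave n c)ᴴ = ((2 : ℝ) : ℂ) • magnetization n from e1, smul_smul,
        ← Complex.ofReal_mul, mul_comm h] at h0
      exact h0
    rw [e1, e3, gibbs_smul, gibbs_smul, gibbs_add, gibbs_smul, ← hm] at fb
    simp only [hd, hg]
    exact fb
  have key : ∀ p, 4 * m * (Real.cosh (x₀ p) / Real.sinh (x₀ p))
      ≤ g (a p) + g (star (a p)) := by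
    intro p
    have hc : ∀ x, Complex.normSq (star (a p) x) = 1 := fun x => by
      simp [Complex.normSq_conj, ha p x]
    have h1 := one (a p) (ha p) _ (hx₀ p)
    have h2 := one (star (a p)) hc _ (hx₀ p)
    have h3 := double_comm_le (n := n) hirr hK (a p) (ha p)
    have h4 := hbd p
    have hs : 0 < Real.sinh (x₀ p) ^ 2 := pow_pos (Real.sinh_pos_iff.2 (hx₀ p)) 2
    have h5 : β * (d (a p) + d (star (a p)) + 4 * h * m) / 2 ≤ 4 * m * x₀ p := by
      refine le_trans ?_ h4
      have := mul_le_mul_of_nonneg_left h3 hβ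
      simp only [hd]
      linarith
    have h6 := div_le_div_of_nonneg_right h5 hs.le
    have q1 : β * (d (a p) + 2 * h * m) / (2 * Real.sinh (x₀ p) ^ 2)
        + β * (d (star (a p)) + 2 * h * m) / (2 * Real.sinh (x₀ p) ^ 2)
        = β * (d (a p) + d (star (a p)) + 4 * h * m) / 2 / Real.sinh (x₀ p) ^ 2 := by ring
    have q2 : (Real.cosh (x₀ p) / Real.sinh (x₀ p) + x₀ p / Real.sinh (x₀ p) ^ 2) * (2 * m) * 2
        = 4 * m * (Real.cosh (x₀ p) / Real.sinh (x₀ p))
          + 4 * m * x₀ p / Real.sinh (x₀ p) ^ 2 := by ring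
    linarith
  have total : ∀ c : P → Λ → ℂ, (∀ x y, ∑ p, c p x * star (c p y) = if x = y then (V : ℂ) else 0) →
      ∑ p, g (c p) ≤ V * ((n : ℝ) ^ 2 * (Fintype.card Λ : ℝ) - 2 * ((n : ℝ) - 1) * m) := by
    intro c hc
    simp only [hg]
    rw [← gibbs_sum, sum_wave_mul c (V : ℂ) hc, gibbs_smul, gibbs_sum]
    refine mul_le_mul_of_nonneg_left ?_ hV
    refine (Finset.sum_le_sum fun x _ => gibbs_UDDU_le hK x).trans (le_of_eq ?_)
    rw [hm, magnetization, gibbs_sum, Finset.mul_sum]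
    simp [Finset.sum_sub_distrib, mul_comm]
  have horth' : ∀ x y, ∑ p, star (a p) x * star (star (a p) y)
      = if x = y then (V : ℂ) else 0 := by
    intro x y
    simp only [Pi.star_apply, star_star]
    rw [show (∑ p, star (a p x) * a p y) = ∑ p, a p y * star (a p x) from
      Finset.sum_congr rfl fun p _ => mul_comm _ _, horth]
    simp [eq_comm]
  have t1 := total a horth
  have t2 := total (fun p => star (a p)) horth'
  have s := Finset.sum_le_sum fun p (_ : p ∈ Finset.univ) => key p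
  rw [Finset.sum_add_distrib, ← Finset.mul_sum] at s
  linarith

end Vale.Agent.P361
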