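import Vale.Agent.P361.Bound

/-!
The finite-volume magnetization bound on a box.
-/

namespace Vale.Agent.P361

open scoped Matrix BigOperators
open Matrix

/-- Wave numbers of the dual box. -/
noncomputable def kmom (N : ℕ) (a : Fin (2 * N + 1)) : ℝ :=
  2 * Real.pi * (((a : ℕ) : ℝ) - N) / (2 * N + 1 : ℕ)

/-- Plane waves. -/
noncomputable def phase (N : ℕ) (p : Box (2 * N + 1)) (x : Box (2 * N + 1)) : ℂ :=
  Complex.exp (((∑ i, kmom N (p i) * ((x i : ℕ) : ℝ)) : ℝ) * Complex.I)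

lemma phase_normSq (N : ℕ) (p x : Box (2 * N + 1)) : Complex.normSq (phase N p x) = 1 := by
  rw [Complex.normSq_eq_norm_sq, phase, Complex.norm_exp_ofReal_mul_I, one_pow]

lemma geom_zero (N : ℕ) {m : ℤ} (hm : m ≠ 0) (hlt : |m| < (2 * N + 1 : ℕ)) :
    ∑ a : Fin (2 * N + 1), Complex.exp (((kmom N a * (m : ℝ) : ℝ) : ℂ) * Complex.I) = 0 := by
  set L : ℕ := 2 * N + 1 with hL
  have hL0 : ((L : ℕ) : ℂ) ≠ 0 := by simp [hL]; norm_cast
  set ω : ℂ := Complex.exp (2 * Real.pi * Complex.I * m / L) with hω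
  have hterm : ∀ a : Fin L, Complex.exp (((kmom N a * (m : ℝ) : ℝ) : ℂ) * Complex.I)
      = Complex.exp (-(2 * Real.pi * Complex.I * m * N / L)) * ω ^ (a : ℕ) := by
    intro a
    rw [hω, ← Complex.exp_nat_mul, ← Complex.exp_add]
    congr 1
    simp only [kmom, ← hL]
    push_cast
    field_simp
    ring
  simp only [hterm, ← Finset.mul_sum]
  have h1 : ω ≠ 1 := by
    rw [hω, Ne, Complex.exp_eq_one_iff]
    rintro ⟨k, hk⟩
    field_simp at hk
    have hk' : (m : ℂ) = (k : ℂ) * (L : ℂ) := by linear_combination hk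
    have hk'' : m = k * (L : ℤ) := by exact_mod_cast hk'
    exact hm (Int.eq_zero_of_abs_lt_dvd ⟨k, by rw [hk'']; ring⟩ hlt)
  have h2 : ω ^ L = 1 := by
    rw [hω, ← Complex.exp_nat_mul, Complex.exp_eq_one_iff]
    exact ⟨m, by field_simp⟩
  rw [Fin.sum_univ_eq_sum_range (fun i => ω ^ i) L, geom_sum_eq h1, h2]
  simp

lemma phase_orth (N : ℕ) (x y : Box (2 * N + 1)) :
    ∑ p, phase N p x * star (phase N p y)
      = if x = y then (((((2 * N + 1 : ℕ) : ℝ) ^ 3 : ℝ)) : ℂ) else 0 := by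
  have e : ∀ p : Box (2 * N + 1), phase N p x * star (phase N p y)
      = ∏ i, Complex.exp (((kmom N (p i)
          * (((((x i : ℕ) : ℤ) - ((y i : ℕ) : ℤ) : ℤ)) : ℝ) : ℝ) : ℂ) * Complex.I) := by
    intro p
    rw [phase, phase, Complex.star_def, ← Complex.exp_conj, ← Complex.exp_add, ← Complex.exp_sum]
    congr 1
    simp [Finset.sum_mul, ← Finset.sum_neg_distrib, ← Finset.sum_add_distrib]
    refine Finset.sum_congr rfl fun i _ => ?_
    ring
  simp only [e]
  rw [← Fintype.prod_sum (fun i (a : Fin (2 * N + 1)) => Complex.exp (((kmom N a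
          * (((((x i : ℕ) : ℤ) - ((y i : ℕ) : ℤ) : ℤ)) : ℝ) : ℝ) : ℂ) * Complex.I))]
  split_ifs with h
  · subst h; simp
  · obtain ⟨i, hi⟩ := Function.ne_iff.1 h
    have hm : ((x i : ℕ) : ℤ) - ((y i : ℕ) : ℤ) ≠ 0 := fun h0 => hi (Fin.ext (by omega))
    have hlt : |((x i : ℕ) : ℤ) - ((y i : ℕ) : ℤ)| < (2 * N + 1 : ℕ) := by
      have := (x i).isLt
      have := (y i).isLt
      rw [abs_lt]
      omega
    refine Finset.prod_eq_zero (Finset.mem_univ i) ?_
    exact geom_zero N hm hlt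

/-- Neighbours in direction j. -/
def adjDir (L : ℕ) (j : Fin 3) (x y : Box L) : Prop :=
  |((x j : ℕ) : ℤ) - ((y j : ℕ) : ℤ)| = 1 ∧ ∀ i, i ≠ j → x i = y i

lemma boxAdj_irrefl (L : ℕ) (x : Box L) : ¬ boxAdj L x x := by simp [boxAdj]

lemma boxAdj_dir {L : ℕ} {x y : Box L} (h : boxAdj L x y) : ∃ j, adjDir L j x y := by
  have hne : x ≠ y := fun e => boxAdj_irrefl L x (by subst e; exact h)
  obtain ⟨j, hj⟩ := Function.ne_iff.1 hne
  have hj' : ((x j : ℕ) : ℤ) - ((y j : ℕ) : ℤ) ≠ 0 := fun h0 => hj (Fin.ext (by omega))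
  have h1 := Finset.single_le_sum (f := fun i => |((x i : ℕ) : ℤ) - ((y i : ℕ) : ℤ)|)
    (fun i _ => abs_nonneg _) (Finset.mem_univ j)
  rw [boxAdj] at h
  have h2 : |((x j : ℕ) : ℤ) - ((y j : ℕ) : ℤ)| = 1 := by
    have := abs_pos.2 hj'
    omega
  refine ⟨j, h2, fun i hi => ?_⟩
  rw [← Finset.add_sum_erase _ _ (Finset.mem_univ j), h2] at h
  have h3 := (Finset.sum_eq_zero_iff_of_nonneg (fun i _ => abs_nonneg _)).1
    (by linarith : ∑ i ∈ Finset.univ.erase j, |((x i : ℕ) : ℤ) - ((y i : ℕ) : ℤ)| = 0) i (by simp [hi])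
  exact Fin.ext (by rw [abs_eq_zero] at h3; omega)

lemma adjDir_symm {L : ℕ} {j : Fin 3} {x y : Box L} : adjDir L j x y ↔ adjDir L j y x := by
  constructor <;> exact fun h => ⟨by rw [abs_sub_comm]; exact h.1, fun i hi => (h.2 i hi).symm⟩

open Classical in
lemma adjDir_card {L : ℕ} (j : Fin 3) (x : Box L) :
    ((Finset.univ.filter fun y => adjDir L j x y).card : ℝ) ≤ 2 := by
  have h : (Finset.univ.filter fun y => adjDir L j x y).card
      ≤ ({((x j : ℕ) : ℤ) + 1, ((x j : ℕ) : ℤ) - 1} : Finset ℤ).card := by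
    refine Finset.card_le_card_of_injOn (fun y => ((y j : ℕ) : ℤ)) ?_ ?_
    · intro y hy
      simp only [Finset.coe_filter, Finset.mem_univ, true_and, Set.mem_setOf_eq] at hy
      simp only [Finset.coe_insert, Finset.coe_singleton, Set.mem_insert_iff,
        Set.mem_singleton_iff]
      rcases abs_eq_abs.1 (hy.1.trans abs_one.symm) with e | e <;> omega
    · intro y hy z hz e
      simp only [Finset.coe_filter, Finset.mem_univ, true_and, Set.mem_setOf_eq] at hy hz
      funext i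
      by_cases hi : i = j
      · subst hi
        exact Fin.ext (by simp only at e; omega)
      · exact (hy.2 i hi).symm.trans (hz.2 i hi)
  exact_mod_cast h.trans Finset.card_le_two

lemma phase_diff {N : ℕ} (p : Box (2 * N + 1)) {j : Fin 3} {x y : Box (2 * N + 1)}
    (h : adjDir (2 * N + 1) j x y) :
    Complex.normSq (phase N p x - phase N p y) = 2 * (1 - Real.cos (kmom N (p j))) := by
  set A := ∑ i, kmom N (p i) * ((x i : ℕ) : ℝ) with hA
  set B := ∑ i, kmom N (p i) * ((y i : ℕ) : ℝ) with hB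
  have e : A - B = kmom N (p j) * (((x j : ℕ) : ℝ) - ((y j : ℕ) : ℝ)) := by
    rw [hA, hB, ← Finset.sum_sub_distrib, Finset.sum_eq_single j]
    · ring
    · intro i _ hi; rw [h.2 i hi]; ring
    · simp
  have ec : Real.cos (A - B) = Real.cos (kmom N (p j)) := by
    rw [e]
    rcases abs_eq_abs.1 (h.1.trans abs_one.symm) with e1 | e1 <;>
    · have e2 := congrArg (fun z : ℤ => (z : ℝ)) e1
      push_cast at e2
      simp [e2]
  rw [← ec, Real.cos_sub, phase, phase, ← hA, ← hB, Complex.normSq_apply]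
  simp only [Complex.sub_re, Complex.sub_im, Complex.exp_ofReal_mul_I_re,
    Complex.exp_ofReal_mul_I_im]
  linear_combination Real.sin_sq_add_cos_sq A + Real.sin_sq_add_cos_sq B

/-- The expected total magnetization. -/
noncomputable def totalMag (n N : ℕ) (β h : ℝ) : ℝ :=
  gibbs (gK n (boxAdj (2 * N + 1)) β h) (magnetization n)

lemma hopBound_le (n N : ℕ) (p : Box (2 * N + 1)) {K} (hK : Matrix.IsHermitian K) :
    hopBound n (boxAdj (2 * N + 1)) K (phase N p)
      ≤ (∑ j, (1 - Real.cos (kmom N (p j)))) *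
        (2 * (((2 * N + 1 : ℕ) : ℝ) ^ 3) * (n : ℝ) ^ 2 + 4 * ((n : ℝ) + 1)
          * ((n : ℝ) / 2 * (((2 * N + 1 : ℕ) : ℝ) ^ 3) - gibbs K (magnetization n))) := by
  classical
  set δ : Box (2 * N + 1) → ℝ := fun x => (n : ℝ) / 2 - gibbs K (opZ n x) with hδ
  have hδ0 : ∀ x, 0 ≤ δ x := fun x => sub_nonneg.2 (gibbs_Z_le hK x)
  set F : Box (2 * N + 1) → Box (2 * N + 1) → ℝ := fun x y =>
    (n : ℝ) ^ 2 + ((n : ℝ) + 1) * (δ x + δ y) with hF
  have hn1 : (0 : ℝ) ≤ (n : ℝ) + 1 := by linarith [(Nat.cast_nonneg n : (0 : ℝ) ≤ n)]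
  have hF0 : ∀ x y, 0 ≤ F x y := fun x y =>
    add_nonneg (sq_nonneg _) (mul_nonneg hn1 (add_nonneg (hδ0 x) (hδ0 y)))
  have hc0 : ∀ j, 0 ≤ 1 - Real.cos (kmom N (p j)) := fun j => sub_nonneg.2 (Real.cos_le_one _)
  have hsumδ : ∑ x, δ x
      = (n : ℝ) / 2 * (((2 * N + 1 : ℕ) : ℝ) ^ 3) - gibbs K (magnetization n) := by
    simp only [hδ, magnetization, gibbs_sum, Finset.sum_sub_distrib]
    simp; ring
  rw [← hsumδ, hopBound]
  calc (1 / 2 : ℝ) * ∑ x, ∑ y, (if boxAdj _ x y then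
        Complex.normSq (phase N p x - phase N p y) * F x y else 0)
      ≤ (1 / 2 : ℝ) * ∑ x, ∑ y, ∑ j, (if adjDir _ j x y then
        2 * (1 - Real.cos (kmom N (p j))) * F x y else 0) := by
        refine mul_le_mul_of_nonneg_left (Finset.sum_le_sum fun x _ => Finset.sum_le_sum
          fun y _ => ?_) (by norm_num)
        have hnn : ∀ j ∈ Finset.univ, 0 ≤ (if adjDir (2 * N + 1) j x y then
            2 * (1 - Real.cos (kmom N (p j))) * F x y else 0) := fun j _ => by
          split_ifs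
          · exact mul_nonneg (mul_nonneg zero_le_two (hc0 j)) (hF0 x y)
          · exact le_rfl
        split_ifs with h
        · obtain ⟨j, hj⟩ := boxAdj_dir h
          refine le_trans ?_ (Finset.single_le_sum hnn (Finset.mem_univ j))
          rw [if_pos hj, phase_diff p hj]
        · exact Finset.sum_nonneg hnn
    _ = ∑ j, (1 - Real.cos (kmom N (p j))) *
          ∑ x, ∑ y, (if adjDir _ j x y then F x y else 0) := by
        simp only [Finset.mul_sum]
        rw [Finset.sum_comm (s := Finset.univ (α := Fin 3))]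
        refine Finset.sum_congr rfl fun x _ => ?_
        rw [Finset.sum_comm (s := Finset.univ (α := Fin 3))]
        refine Finset.sum_congr rfl fun y _ => Finset.sum_congr rfl fun j _ => ?_
        split_ifs <;> ring
    _ ≤ ∑ j, (1 - Real.cos (kmom N (p j))) *
          (2 * (((2 * N + 1 : ℕ) : ℝ) ^ 3) * (n : ℝ) ^ 2 + 4 * ((n : ℝ) + 1) * ∑ x, δ x) := by
        refine Finset.sum_le_sum fun j _ => mul_le_mul_of_nonneg_left ?_ (hc0 j)
        have a1 : ∀ f : Box (2 * N + 1) → ℝ, (∀ x, 0 ≤ f x) →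
            ∑ x, ∑ y, (if adjDir (2 * N + 1) j x y then f x else 0) ≤ 2 * ∑ x, f x := by
          intro f hf
          rw [Finset.mul_sum]
          refine Finset.sum_le_sum fun x _ => ?_
          rw [← Finset.sum_filter, Finset.sum_const, nsmul_eq_mul]
          exact mul_le_mul_of_nonneg_right (adjDir_card j x) (hf x)
        have a2 : ∑ x, ∑ y, (if adjDir (2 * N + 1) j x y then δ y else 0) ≤ 2 * ∑ x, δ x := by
          rw [Finset.sum_comm]
          refine le_of_eq_of_le ?_ (a1 δ hδ0)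
          exact Finset.sum_congr rfl fun x _ => Finset.sum_congr rfl fun y _ =>
            if_congr adjDir_symm rfl rfl
        have a3 := a1 (fun x => (n : ℝ) ^ 2 + ((n : ℝ) + 1) * δ x)
          (fun x => add_nonneg (sq_nonneg _) (mul_nonneg hn1 (hδ0 x)))
        have a4 : ∀ x y, (if adjDir (2 * N + 1) j x y then F x y else 0)
            = (if adjDir (2 * N + 1) j x y then (n : ℝ) ^ 2 + ((n : ℝ) + 1) * δ x else 0)
              + ((n : ℝ) + 1) * (if adjDir (2 * N + 1) j x y then δ y else 0) := by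
          intro x y; split_ifs <;> (try simp only [hF]) <;> ring
        simp only [a4, Finset.sum_add_distrib, ← Finset.mul_sum]
        have a5 := mul_le_mul_of_nonneg_left a2 hn1
        rw [Finset.sum_add_distrib, ← Finset.mul_sum] at a3
        simp only [Finset.sum_const, Finset.card_univ, nsmul_eq_mul, Fintype.card_pi,
          Fintype.card_fin, Finset.prod_const] at a3
        push_cast at a3 ⊢
        linarith
    _ = _ := by rw [Finset.sum_mul]

lemma coth_eq {y : ℝ} (hy : 0 < y) :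
    Real.cosh y / Real.sinh y = 1 + 2 * (1 / (Real.exp (2 * y) - 1)) := by
  have h1 : 1 < Real.exp (2 * y) := Real.one_lt_exp_iff.2 (by linarith)
  have h2 := Real.exp_pos y
  have e : Real.exp (2 * y) = Real.exp y * Real.exp y := by rw [two_mul, Real.exp_add]
  rw [Real.cosh_eq, Real.sinh_eq, Real.exp_neg, e]
  rw [e] at h1
  have h3 : Real.exp y * Real.exp y - 1 ≠ 0 := by linarith
  have h4 : Real.exp y ^ 2 - 1 ≠ 0 := by rwa [pow_two]
  field_simp
  ring

lemma bose_ge_sum {y : ℝ} (hy : 0 < y) (J : ℕ) :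
    ∑ i ∈ Finset.range J, Real.exp (-((i : ℝ) + 1) * y) ≤ 1 / (Real.exp y - 1) := by
  have hq0 : 0 < Real.exp (-y) := Real.exp_pos _
  have hq1 : Real.exp (-y) < 1 := Real.exp_lt_one_iff.2 (by linarith)
  have e : ∀ i : ℕ, Real.exp (-((i : ℝ) + 1) * y) = Real.exp (-y) * Real.exp (-y) ^ i := by
    intro i
    rw [← Real.exp_nat_mul, ← Real.exp_add]; congr 1; ring
  simp only [e, ← Finset.mul_sum]
  have hs := (summable_geometric_of_lt_one hq0.le hq1).sum_le_tsum (Finset.range J)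
    (fun i _ => pow_nonneg hq0.le i)
  rw [tsum_geometric_of_lt_one hq0.le hq1] at hs
  calc Real.exp (-y) * ∑ i ∈ Finset.range J, Real.exp (-y) ^ i
      ≤ Real.exp (-y) * (1 - Real.exp (-y))⁻¹ := mul_le_mul_of_nonneg_left hs hq0.le
    _ = 1 / (Real.exp y - 1) := by
        rw [Real.exp_neg]
        have : 1 < Real.exp y := Real.one_lt_exp_iff.2 hy
        field_simp

/-- One-dimensional Gaussian momentum average. -/
noncomputable def gauss (t : ℝ) : ℝ :=
  (1 / Real.pi) * ∫ θ in (0 : ℝ)..Real.pi, Real.exp (-(t * θ ^ 2 / 2))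

lemma lattice_gauss (N : ℕ) {t : ℝ} (ht : 0 ≤ t) :
    ((2 * N + 1 : ℕ) : ℝ) * gauss t - 1
      ≤ ∑ a : Fin (2 * N + 1), Real.exp (-(t * (1 - Real.cos (kmom N a)))) := by
  set L : ℝ := ((2 * N + 1 : ℕ) : ℝ) with hL
  have hL0 : 0 < L := by positivity
  set w : ℝ := 2 * Real.pi / L with hw
  have hw0 : 0 < w := by positivity
  set f : ℝ → ℝ := fun u => Real.exp (-(t * (w * u) ^ 2 / 2)) with hf
  have h1 : ∑ a : Fin (2 * N + 1), f (((a : ℕ) : ℝ) - N)
      ≤ ∑ a : Fin (2 * N + 1), Real.exp (-(t * (1 - Real.cos (kmom N a)))) := by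
    refine Finset.sum_le_sum fun a _ => Real.exp_le_exp.2 ?_
    have := Real.one_sub_sq_div_two_le_cos (x := kmom N a)
    have e : w * (((a : ℕ) : ℝ) - N) = kmom N a := by rw [hw, kmom, hL]; ring
    rw [e]
    nlinarith
  have h2 : ∑ a : Fin (2 * N + 1), f (((a : ℕ) : ℝ) - N)
      = 2 * ∑ i ∈ Finset.range (N + 1), f i - f 0 := by
    rw [Fin.sum_univ_eq_sum_range (fun i : ℕ => f ((i : ℝ) - N)) (2 * N + 1),
      show 2 * N + 1 = N + (N + 1) by ring, Finset.sum_range_add]
    have e1 : ∑ i ∈ Finset.range N, f ((i : ℝ) - N) = ∑ i ∈ Finset.range N, f ((i : ℝ) + 1) := by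
      rw [← Finset.sum_range_reflect]
      refine Finset.sum_congr rfl fun i hi => ?_
      have hiN : i + 1 ≤ N := Finset.mem_range.1 hi
      rw [Nat.cast_sub (by omega), Nat.cast_sub (by omega)]
      simp only [hf]
      congr 1
      push_cast
      ring
    have e2 : ∑ i ∈ Finset.range (N + 1), f i = ∑ i ∈ Finset.range N, f ((i : ℝ) + 1) + f 0 := by
      rw [Finset.sum_range_succ']; push_cast; rfl
    rw [e1]
    push_cast
    simp only [add_sub_cancel_left]
    linarith [e2]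
  have h3 : ∫ u in (0 : ℝ)..(0 : ℝ) + ((N + 1 : ℕ) : ℝ), f u
      ≤ ∑ i ∈ Finset.range (N + 1), f i := by
    refine (AntitoneOn.integral_le_sum (a := N + 1) (x₀ := 0) (f := f) ?_).trans
      (le_of_eq (by simp))
    intro a ha b hb hab
    refine Real.exp_le_exp.2 ?_
    have : (w * a) ^ 2 ≤ (w * b) ^ 2 := by
      apply pow_le_pow_left₀ (mul_nonneg hw0.le ha.1)
      exact mul_le_mul_of_nonneg_left hab hw0.le
    nlinarith
  have h4 : L * gauss t / 2 ≤ ∫ u in (0 : ℝ)..(0 : ℝ) + ((N + 1 : ℕ) : ℝ), f u := by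
    rw [zero_add]
    have e : ∫ u in (0 : ℝ)..((N + 1 : ℕ) : ℝ), f u
        = w⁻¹ * ∫ θ in (0 : ℝ)..w * ((N + 1 : ℕ) : ℝ), Real.exp (-(t * θ ^ 2 / 2)) := by
      have := intervalIntegral.integral_comp_mul_left (fun θ => Real.exp (-(t * θ ^ 2 / 2)))
        (a := 0) (b := ((N + 1 : ℕ) : ℝ)) hw0.ne'
      simpa [hf] using this
    rw [e]
    have hle : Real.pi ≤ w * ((N + 1 : ℕ) : ℝ) := by
      rw [hw, div_mul_eq_mul_div, le_div_iff₀ hL0, hL]
      push_cast
      nlinarith [Real.pi_pos]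
    have := intervalIntegral.integral_mono_interval (le_refl (0 : ℝ)) Real.pi_pos.le hle
      (f := fun θ => Real.exp (-(t * θ ^ 2 / 2))) (μ := MeasureTheory.volume)
      (Filter.Eventually.of_forall fun θ => (Real.exp_pos _).le)
      (Continuous.intervalIntegrable (by fun_prop) _ _)
    have h5 := mul_le_mul_of_nonneg_left this (inv_nonneg.2 hw0.le)
    refine le_trans (le_of_eq ?_) h5
    rw [gauss, hw, inv_div]
    ring
  have h6 : f 0 = 1 := by simp [hf]
  linarith

/-- The finite-volume bound. -/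
theorem box_bound {n N : ℕ} (hn : 0 < n) {β h η : ℝ} (hβ : 0 < β) (hh : 0 < h)
    (hη0 : 0 ≤ η) (hη : η < (n : ℝ) / 2) (J : ℕ)
    (hpos : ∀ i ∈ Finset.range J, 0 ≤ gauss (((i : ℝ) + 1) * β *
      (((n : ℝ) ^ 2 + 2 * ((n : ℝ) + 1) * η) / (2 * ((n : ℝ) / 2 - η)))) - 1 / (2 * N + 1 : ℕ)) :
    min η ((2 * ((n : ℝ) / 2 - η) / n) * ∑ i ∈ Finset.range J,
      Real.exp (-((i : ℝ) + 1) * (β * h)) *
        (gauss (((i : ℝ) + 1) * β *
          (((n : ℝ) ^ 2 + 2 * ((n : ℝ) + 1) * η) / (2 * ((n : ℝ) / 2 - η))))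
          - 1 / (2 * N + 1 : ℕ)) ^ 3)
      ≤ (n : ℝ) / 2 - totalMag n N β h / (((2 * N + 1 : ℕ) : ℝ) ^ 3) := by
  set L : ℝ := ((2 * N + 1 : ℕ) : ℝ) with hL
  have hL0 : 0 < L := by positivity
  set V := L ^ 3 with hV
  have hV0 : 0 < V := by positivity
  set R := ((n : ℝ) ^ 2 + 2 * ((n : ℝ) + 1) * η) / (2 * ((n : ℝ) / 2 - η)) with hR
  set m := totalMag n N β h with hm
  rcases le_or_gt η ((n : ℝ) / 2 - m / V) with hcase | hcase
  · exact min_le_of_left_le hcase
  refine min_le_of_right_le ?_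
  set se := (n : ℝ) / 2 - η with hse
  have hse0 : 0 < se := by rw [hse]; linarith
  have hmV : se * V ≤ m := by
    have : se ≤ m / V := by rw [hse]; linarith
    rwa [le_div_iff₀ hV0] at this
  have hm0 : 0 < m := lt_of_lt_of_le (by positivity) hmV
  have hR0 : 0 ≤ R := div_nonneg (by positivity) (by linarith)
  set K := gK n (boxAdj (2 * N + 1)) β h
  have hK : K.IsHermitian := gK_isHermitian (boxAdj_irrefl _) β h
  set c : Box (2 * N + 1) → ℝ := fun p => ∑ j, (1 - Real.cos (kmom N (p j)))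
  have hc : ∀ p, 0 ≤ c p := fun p => Finset.sum_nonneg fun j _ => sub_nonneg.2 (Real.cos_le_one _)
  have hcoef : 2 * V * (n : ℝ) ^ 2 + 4 * ((n : ℝ) + 1) * ((n : ℝ) / 2 * V - m) ≤ 4 * m * R := by
    have e : R * (2 * se) = (n : ℝ) ^ 2 + 2 * ((n : ℝ) + 1) * η := by
      rw [hR, div_mul_cancel₀]; positivity
    have hΔ : (n : ℝ) / 2 * V - m ≤ η * V := by rw [hse] at hmV; linarith
    have hn1 : (0 : ℝ) ≤ (n : ℝ) + 1 := by positivity
    calc 2 * V * (n : ℝ) ^ 2 + 4 * ((n : ℝ) + 1) * ((n : ℝ) / 2 * V - m)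
        ≤ 2 * V * (n : ℝ) ^ 2 + 4 * ((n : ℝ) + 1) * (η * V) := by
          gcongr
      _ = 4 * R * (se * V) := by linear_combination (-2 * V) * e
      _ ≤ 4 * R * m := mul_le_mul_of_nonneg_left hmV (by positivity)
      _ = _ := by ring
  set x₀ : Box (2 * N + 1) → ℝ := fun p => β * (R * c p + h) / 2 with hx₀
  have hx₀pos : ∀ p, 0 < x₀ p := fun p => by
    have h1 := mul_nonneg hR0 (hc p)
    exact div_pos (mul_pos hβ (add_pos_of_nonneg_of_pos h1 hh)) two_pos
  have gb := graph_bound (n := n) (boxAdj_irrefl (2 * N + 1)) (β := β) (h := h) (phase N)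
    (phase_normSq N) V hV0.le (fun x y => phase_orth N x y) x₀ hx₀pos hβ.le (fun p => by
      have h1 := hopBound_le n N p hK
      have h2 := mul_le_mul_of_nonneg_left hcoef (hc p)
      have h3 : hopBound n (boxAdj (2 * N + 1)) K (phase N p) ≤ 4 * m * R * c p := by
        rw [← hm] at *
        simp only [m, totalMag, V, L, c, K] at *
        linarith
      have h4 := mul_le_mul_of_nonneg_left h3 hβ.le
      show β * (hopBound n (boxAdj (2 * N + 1)) K (phase N p) + 4 * h * m) / 2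
        ≤ 4 * m * x₀ p
      simp only [hx₀]
      linarith)
  change m * _ ≤ _ at gb
  have hcard : (Fintype.card (Box (2 * N + 1)) : ℝ) = V := by simp [hV, hL]
  rw [hcard] at gb
  change m * _ ≤ V * ((n : ℝ) ^ 2 / 2 * V - ((n : ℝ) - 1) * m) at gb
  simp only [coth_eq (hx₀pos _), Finset.sum_add_distrib, Finset.sum_const, Finset.card_univ,
    nsmul_eq_mul, mul_one, hcard, ← Finset.mul_sum] at gb
  set B := ∑ p, 1 / (Real.exp (2 * x₀ p) - 1)
  set S := ∑ i ∈ Finset.range J, Real.exp (-((i : ℝ) + 1) * (β * h)) *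
    (gauss (((i : ℝ) + 1) * β * R) - 1 / L) ^ 3 with hS
  have hB : V * S ≤ B := by
    calc V * S ≤ ∑ i ∈ Finset.range J, Real.exp (-((i : ℝ) + 1) * (β * h)) *
          (∑ a : Fin (2 * N + 1),
            Real.exp (-(((i : ℝ) + 1) * β * R * (1 - Real.cos (kmom N a))))) ^ 3 := by
          rw [hS, Finset.mul_sum]
          refine Finset.sum_le_sum fun i hi => ?_
          rw [mul_left_comm]
          refine mul_le_mul_of_nonneg_left ?_ (Real.exp_pos _).le
          rw [hV, ← mul_pow]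
          refine pow_le_pow_left₀ (mul_nonneg hL0.le (hpos i hi)) ?_ 3
          refine le_trans (le_of_eq ?_) (lattice_gauss N (by positivity))
          rw [mul_sub, mul_one_div, div_self hL0.ne']
      _ = ∑ p : Box (2 * N + 1), ∑ i ∈ Finset.range J,
            Real.exp (-((i : ℝ) + 1) * (2 * x₀ p)) := by
          rw [Finset.sum_comm]
          refine Finset.sum_congr rfl fun i _ => ?_
          rw [← Fin.prod_const, Fintype.prod_sum, Finset.mul_sum]
          refine Finset.sum_congr rfl fun p _ => ?_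
          rw [← Real.exp_sum, ← Real.exp_add]
          congr 1
          simp only [hx₀, c, Finset.sum_neg_distrib, ← Finset.mul_sum]
          ring
      _ ≤ B := Finset.sum_le_sum fun p _ => bose_ge_sum (by linarith [hx₀pos p]) J
  have hS0 : 0 ≤ S := Finset.sum_nonneg fun i hi =>
    mul_nonneg (Real.exp_pos _).le (pow_nonneg (hpos i hi) 3)
  have h1 : m * (2 * B) ≤ V * ((n : ℝ) * ((n : ℝ) / 2 * V - m)) := by linarith
  have h2 : se * V * (2 * (V * S)) ≤ m * (2 * B) :=
    mul_le_mul hmV (by linarith) (by positivity) hm0.le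
  have h3 : V * (2 * (se * (V * S))) ≤ V * ((n : ℝ) * ((n : ℝ) / 2 * V - m)) := by linarith
  have h4 := le_of_mul_le_mul_left h3 hV0
  have hnR : (0 : ℝ) < n := Nat.cast_pos.2 hn
  have e : (n : ℝ) / 2 - m / V = ((n : ℝ) * ((n : ℝ) / 2 * V - m)) / (n * V) := by
    field_simp
  rw [e, le_div_iff₀ (by positivity)]
  refine le_trans (le_of_eq ?_) h4
  field_simp

end Vale.Agent.P361
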