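import Vale.Agent.P361.Bound

/-!
Existence of the thermodynamic limit of the pressure with free boundary conditions.
-/

namespace Vale.Agent.P361

open scoped Matrix BigOperators Kronecker
open Matrix

section Exp

variable {ι κ : Type*} [Fintype ι] [DecidableEq ι] [Fintype κ] [DecidableEq κ]

lemma exp_map {F : Type*} [FunLike F (Matrix ι ι ℂ) (Matrix κ κ ℂ)]
    [RingHomClass F (Matrix ι ι ℂ) (Matrix κ κ ℂ)] (f : F) (hf : Continuous f) (A : Matrix ι ι ℂ) :
    f (NormedSpace.exp A) = NormedSpace.exp (f A) :=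
  open scoped Norms.Operator in NormedSpace.map_exp f hf A

lemma exp_submatrix (e : κ ≃ ι) (A : Matrix ι ι ℂ) :
    (NormedSpace.exp A).submatrix e e = NormedSpace.exp (A.submatrix e e) :=
  exp_map (Matrix.reindexAlgEquiv ℂ ℂ e.symm)
    (by exact continuous_id.matrix_submatrix e e) A

lemma part_submatrix (e : κ ≃ ι) (A : Matrix ι ι ℂ) : part (A.submatrix e e) = part A := by
  rw [part, part, ← exp_submatrix]
  congr 1
  simp only [Matrix.trace, Matrix.diag, Matrix.submatrix_apply]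
  exact Fintype.sum_equiv e _ _ (fun _ => rfl)

/-- A ↦ A ⊗ 1. -/
noncomputable def kronL : Matrix ι ι ℂ →+* Matrix (ι × κ) (ι × κ) ℂ where
  toFun A := A ⊗ₖ (1 : Matrix κ κ ℂ)
  map_one' := Matrix.one_kronecker_one
  map_mul' A B := by rw [← Matrix.mul_kronecker_mul, Matrix.one_mul]
  map_zero' := Matrix.zero_kronecker _
  map_add' A B := Matrix.add_kronecker A B _

/-- B ↦ 1 ⊗ B. -/
noncomputable def kronR : Matrix κ κ ℂ →+* Matrix (ι × κ) (ι × κ) ℂ where
  toFun B := (1 : Matrix ι ι ℂ) ⊗ₖ B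
  map_one' := Matrix.one_kronecker_one
  map_mul' A B := by rw [← Matrix.mul_kronecker_mul, Matrix.one_mul]
  map_zero' := Matrix.kronecker_zero _
  map_add' A B := Matrix.kronecker_add _ A B

lemma trace_exp_im {A : Matrix ι ι ℂ} (hA : A.IsHermitian) : (NormedSpace.exp A).trace.im = 0 := by
  rw [trace_exp hA]; simp [Complex.exp_ofReal_im]

lemma part_kron {A : Matrix ι ι ℂ} {B : Matrix κ κ ℂ} (hA : A.IsHermitian) :
    part (A ⊗ₖ (1 : Matrix κ κ ℂ) + (1 : Matrix ι ι ℂ) ⊗ₖ B) = part A * part B := by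
  have hc : Commute (A ⊗ₖ (1 : Matrix κ κ ℂ)) ((1 : Matrix ι ι ℂ) ⊗ₖ B) := by
    simp [Commute, SemiconjBy, ← Matrix.mul_kronecker_mul]
  have e1 : NormedSpace.exp (A ⊗ₖ (1 : Matrix κ κ ℂ)) = NormedSpace.exp A ⊗ₖ (1 : Matrix κ κ ℂ) :=
    (exp_map (kronL (ι := ι) (κ := κ)) (continuous_matrix fun i j => by
      simp only [kronL, RingHom.coe_mk, MonoidHom.coe_mk, OneHom.coe_mk,
        Matrix.kroneckerMap_apply]
      fun_prop) A).symm
  have e2 : NormedSpace.exp ((1 : Matrix ι ι ℂ) ⊗ₖ B) = (1 : Matrix ι ι ℂ) ⊗ₖ NormedSpace.exp B :=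
    (exp_map (kronR (ι := ι) (κ := κ)) (continuous_matrix fun i j => by
      simp only [kronR, RingHom.coe_mk, MonoidHom.coe_mk, OneHom.coe_mk,
        Matrix.kroneckerMap_apply]
      fun_prop) B).symm
  rw [part, Matrix.exp_add_of_commute _ _ hc, e1, e2, ← Matrix.mul_kronecker_mul, Matrix.mul_one,
    Matrix.one_mul, Matrix.trace_kronecker, Complex.mul_re, trace_exp_im hA]
  simp [part]

end Exp

variable {Λ Λ' : Type*} [Fintype Λ] [DecidableEq Λ] [Fintype Λ'] [DecidableEq Λ'] {n : ℕ}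

/-- Logarithm of the partition function. -/
noncomputable def logZ (n : ℕ) (adj : Λ → Λ → Prop) (β h : ℝ) : ℝ :=
  Real.log (part (gK n adj β h))

lemma logZ_empty [IsEmpty Λ] (adj : Λ → Λ → Prop) (β h : ℝ) : logZ n adj β h = 0 := by
  have e : gK n adj β h = 0 := by simp [gK, hamiltonian, magnetization]
  simp [logZ, e, part]

lemma siteOp_relabel (e : Λ ≃ Λ') (x : Λ) (A : Matrix (Fin (n + 1)) (Fin (n + 1)) ℂ) :
    (siteOp x A).submatrix (fun σ : Config Λ' n => σ ∘ e) (fun σ : Config Λ' n => σ ∘ e)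
      = siteOp (e x) A := by
  ext σ τ
  simp only [Matrix.submatrix_apply, siteOp, Function.comp_apply]
  have h : (∀ y, y ≠ x → σ (e y) = τ (e y)) ↔ (∀ z, z ≠ e x → σ z = τ z) := by
    constructor
    · intro h z hz
      have := h (e.symm z) (fun h' => hz (by rw [← h', Equiv.apply_symm_apply]))
      simpa using this
    · intro h y hy; exact h (e y) (fun h' => hy (e.injective h'))
  simp only [h]

lemma logZ_relabel (e : Λ ≃ Λ') {adj : Λ → Λ → Prop} {adj' : Λ' → Λ' → Prop}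
    (hadj : ∀ x y, adj' (e x) (e y) ↔ adj x y) (β h : ℝ) :
    logZ n adj' β h = logZ n adj β h := by
  classical
  set E : Config Λ' n ≃ Config Λ n := Equiv.arrowCongr e.symm (Equiv.refl _) with hE
  have hEf : ⇑E = fun σ : Config Λ' n => σ ∘ e := by funext σ; rfl
  let f := Matrix.reindexAlgEquiv ℂ ℂ E.symm
  have hs : ∀ x A, f (siteOp x A) = siteOp (e x) A := by
    intro x A
    show (siteOp x A).submatrix E E = _
    rw [hEf]; exact siteOp_relabel e x A
  have key : f (gK n adj β h) = gK n adj' β h := by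
    simp only [gK, map_smul, map_sub, hamiltonian, magnetization, map_sum, apply_ite f, map_zero,
      exchange, map_add, map_mul, hs]
    congr 2
    · congr 1
      rw [← e.sum_comp]
      refine Finset.sum_congr rfl fun x _ => ?_
      rw [← e.sum_comp]
      refine Finset.sum_congr rfl fun y _ => ?_
      simp only [hadj]
    · rw [← e.sum_comp (fun x => siteOp x (spinZ n))]
  rw [logZ, logZ, ← key]
  exact congrArg Real.log (part_submatrix E (gK n adj β h))

/-- Adjacency on a disjoint union with no edges between the two parts. -/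
def sumAdj (adj : Λ → Λ → Prop) (adj' : Λ' → Λ' → Prop) : Λ ⊕ Λ' → Λ ⊕ Λ' → Prop
  | Sum.inl x, Sum.inl y => adj x y
  | Sum.inr x, Sum.inr y => adj' x y
  | _, _ => False

lemma logZ_sum (adj : Λ → Λ → Prop) (adj' : Λ' → Λ' → Prop) (hirr : ∀ x, ¬ adj x x)
    (hirr' : ∀ x, ¬ adj' x x) (β h : ℝ) :
    logZ n (sumAdj adj adj') β h = logZ n adj β h + logZ n adj' β h := by
  classical
  set E : Config Λ n × Config Λ' n ≃ Config (Λ ⊕ Λ') n :=
    (Equiv.sumArrowEquivProdArrow Λ Λ' (Fin (n + 1))).symm with hE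
  let f := Matrix.reindexAlgEquiv ℂ ℂ E.symm
  have hl : ∀ (x : Λ) A, f (siteOp (Sum.inl x) A) = kronL (siteOp x A) := by
    intro x A
    ext ⟨s₁, s₂⟩ ⟨t₁, t₂⟩
    show siteOp (Sum.inl x) A (Sum.elim s₁ s₂) (Sum.elim t₁ t₂)
      = (siteOp x A ⊗ₖ (1 : Matrix (Config Λ' n) (Config Λ' n) ℂ)) (s₁, s₂) (t₁, t₂)
    simp only [siteOp, Matrix.kroneckerMap_apply, Matrix.one_apply, Sum.forall, Sum.elim_inl,
      Sum.elim_inr, ne_eq, Sum.inl.injEq, reduceCtorEq, not_false_eq_true, forall_const,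
      funext_iff]
    split_ifs <;> simp_all
  have hr : ∀ (x : Λ') A, f (siteOp (Sum.inr x) A) = kronR (siteOp x A) := by
    intro x A
    ext ⟨s₁, s₂⟩ ⟨t₁, t₂⟩
    show siteOp (Sum.inr x) A (Sum.elim s₁ s₂) (Sum.elim t₁ t₂)
      = ((1 : Matrix (Config Λ n) (Config Λ n) ℂ) ⊗ₖ siteOp x A) (s₁, s₂) (t₁, t₂)
    simp only [siteOp, Matrix.kroneckerMap_apply, Matrix.one_apply, Sum.forall, Sum.elim_inl,
      Sum.elim_inr, ne_eq, Sum.inr.injEq, reduceCtorEq, not_false_eq_true, forall_const,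
      funext_iff]
    split_ifs <;> simp_all
  have hml : ∀ (c : ℂ) (M : Matrix (Config Λ n) (Config Λ n) ℂ),
      kronL (κ := Config Λ' n) (c • M) = c • kronL M := fun c M => Matrix.smul_kronecker _ _ _
  have hmr : ∀ (c : ℂ) (M : Matrix (Config Λ' n) (Config Λ' n) ℂ),
      kronR (ι := Config Λ n) (c • M) = c • kronR M := fun c M => Matrix.kronecker_smul _ _ _
  have a1 : ∀ x y, f (if sumAdj adj adj' (Sum.inl x) (Sum.inl y) then
      exchange n (Sum.inl x) (Sum.inl y) else 0) = kronL (if adj x y then exchange n x y else 0) := by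
    intro x y
    by_cases hxy : adj x y <;> simp [sumAdj, hxy, exchange, hl]
  have a2 : ∀ x y, f (if sumAdj adj adj' (Sum.inr x) (Sum.inr y) then
      exchange n (Sum.inr x) (Sum.inr y) else 0) = kronR (if adj' x y then exchange n x y else 0) := by
    intro x y
    by_cases hxy : adj' x y <;> simp [sumAdj, hxy, exchange, hr]
  have a3 : ∀ x y, f (if sumAdj adj adj' (Sum.inl x) (Sum.inr y) then
      exchange n (Sum.inl x) (Sum.inr y) else 0) = 0 := by
    intro x y; simp [sumAdj]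
  have a4 : ∀ x y, f (if sumAdj adj adj' (Sum.inr y) (Sum.inl x) then
      exchange n (Sum.inr y) (Sum.inl x) else 0) = 0 := by
    intro x y; simp [sumAdj]
  have key : f (gK n (sumAdj adj adj') β h)
      = kronL (gK n adj β h) + kronR (gK n adj' β h) := by
    simp only [gK, map_smul, map_sub, hamiltonian, magnetization, map_sum, map_add, hml, hmr,
      Fintype.sum_sum_type, a1, a2, a3, a4, hl, hr, Finset.sum_const_zero, add_zero, zero_add]
    -- regroup
    module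
  have hK : (gK n adj β h).IsHermitian := gK_isHermitian hirr β h
  have e : part (gK n (sumAdj adj adj') β h) = part (gK n adj β h) * part (gK n adj' β h) := by
    rw [← part_submatrix E, ← part_kron (B := gK n adj' β h) hK]
    exact congrArg part key
  rw [logZ, e, Real.log_mul (part_pos hK).ne' (part_pos (gK_isHermitian hirr' β h)).ne']
  rfl

/-- A crude bound on the exchange expectation. -/
noncomputable def exBound (n : ℕ) : ℝ := 2 * ((n : ℝ) + 1) ^ 2

lemma gibbs_exchange_abs {K : Matrix (Config Λ n) (Config Λ n) ℂ} (hK : K.IsHermitian) {x y : Λ}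
    (hxy : x ≠ y) : |gibbs K (exchange n x y)| ≤ exBound n := by
  have hZ : ∀ z : Λ, -((n : ℝ) / 2) ≤ gibbs K (opZ n z) := by
    intro z
    have := gibbs_siteDiag_le hK z (d := fun i : Fin (n + 1) => -((n : ℝ) / 2 - (i : ℕ)))
      (c := (n : ℝ) / 2) (fun i => by
        have : ((i : ℕ) : ℝ) ≤ n := by exact_mod_cast Nat.lt_succ_iff.1 i.isLt
        linarith)
    have e : siteOp z (diagonal fun i : Fin (n + 1) => ((-((n : ℝ) / 2 - (i : ℕ)) : ℝ) : ℂ))
        = -opZ n z := by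
      rw [opZ, ← siteOp_neg]; congr 1
      simp [spinZ, Matrix.diagonal_neg]
    rw [e, gibbs_neg] at this
    linarith
  have hn0 : (0 : ℝ) ≤ n := Nat.cast_nonneg n
  have dx := gibbs_DU_le hK x
  have dy := gibbs_DU_le hK y
  have bx := hZ x
  have b_y := hZ y
  have bxm := mul_le_mul_of_nonneg_left bx (by linarith : (0 : ℝ) ≤ (n : ℝ) + 1)
  have bym := mul_le_mul_of_nonneg_left b_y (by linarith : (0 : ℝ) ≤ (n : ℝ) + 1)
  have h1 := gibbs_hop_le hK hxy
  have h2 := gibbs_star_mul_self hK (opU n x + opU n y)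
  have e : (opU n x + opU n y)ᴴ * (opU n x + opU n y)
      = (opD n x * opU n x + opD n y * opU n y)
        + (opD n x * opU n y + opU n x * opD n y) := by
    simp only [opU, opD, Matrix.conjTranspose_add, siteOp_conjTranspose, spinDown, add_mul, mul_add,
      siteOp_comm hxy]
    abel
  rw [e, gibbs_add, gibbs_add] at h2
  have hzz := gibbs_ZZ_le hK x y
  have hzz' : -((n : ℝ) ^ 2 / 4) ≤ gibbs K (opZ n x * opZ n y) := by
    have h3 : gibbs K (-(opZ n x * opZ n y)) ≤ (n : ℝ) ^ 2 / 4 := by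
      rw [opZ, opZ, spinZ, siteOp_diagonal, siteOp_diagonal, Matrix.diagonal_mul_diagonal,
        Matrix.diagonal_neg]
      simp only [Pi.neg_def, ← Complex.ofReal_mul, ← Complex.ofReal_neg]
      refine gibbs_diagonal_le hK fun σ => ?_
      have q1 : ((σ x : ℕ) : ℝ) ≤ n := by exact_mod_cast Nat.lt_succ_iff.1 (σ x).isLt
      have q2 : ((σ y : ℕ) : ℝ) ≤ n := by exact_mod_cast Nat.lt_succ_iff.1 (σ y).isLt
      have q3 : (0 : ℝ) ≤ ((σ x : ℕ) : ℝ) := Nat.cast_nonneg _
      have q4 : (0 : ℝ) ≤ ((σ y : ℕ) : ℝ) := Nat.cast_nonneg _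
      nlinarith [mul_nonneg q3 q4, mul_nonneg (sub_nonneg.2 q1) (sub_nonneg.2 q2)]
    rw [gibbs_neg] at h3
    linarith
  have eq : gibbs K (exchange n x y) = (1 / 2) * gibbs K (opU n x * opD n y + opD n x * opU n y)
      + gibbs K (opZ n x * opZ n y) := by
    rw [exchange_eq, gibbs_add, show (1 / 2 : ℂ) = ((1 / 2 : ℝ) : ℂ) by simp, gibbs_smul]
  rw [eq, add_comm (opU n x * opD n y), abs_le, exBound]
  constructor <;> nlinarith

lemma gibbs_ham_diff {adj adj' : Λ → Λ → Prop} (hirr : ∀ x, ¬ adj x x)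
    (hsub : ∀ x y, adj' x y → adj x y) {K : Matrix (Config Λ n) (Config Λ n) ℂ}
    (hK : K.IsHermitian) (S : Finset (Λ × Λ)) (hS : ∀ x y, adj x y → ¬ adj' x y → (x, y) ∈ S) :
    |gibbs K (hamiltonian n adj - hamiltonian n adj')| ≤ exBound n / 2 * S.card := by
  classical
  have e : hamiltonian n adj - hamiltonian n adj' = ((-(1 / 2) : ℝ) : ℂ) •
      ∑ p : Λ × Λ, (if adj p.1 p.2 ∧ ¬ adj' p.1 p.2 then exchange n p.1 p.2 else 0) := by
    rw [hamiltonian, hamiltonian, ← smul_sub, ← Finset.sum_sub_distrib, Fintype.sum_prod_type]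
    congr 1
    · simp
    refine Finset.sum_congr rfl fun x _ => ?_
    rw [← Finset.sum_sub_distrib]
    refine Finset.sum_congr rfl fun y _ => ?_
    by_cases h' : adj' x y
    · simp [h', hsub x y h']
    · by_cases h : adj x y <;> simp [h, h']
  rw [e, gibbs_smul, gibbs_sum, ← Finset.sum_subset (Finset.subset_univ S), abs_mul]
  · have hb0 : 0 ≤ exBound n := by unfold exBound; positivity
    have : |∑ p ∈ S, gibbs K (if adj p.1 p.2 ∧ ¬ adj' p.1 p.2 then exchange n p.1 p.2 else 0)|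
        ≤ S.card * exBound n := by
      refine (Finset.abs_sum_le_sum_abs _ _).trans ?_
      refine (Finset.sum_le_card_nsmul _ _ _ fun p _ => ?_).trans (le_of_eq (nsmul_eq_mul _ _))
      split_ifs with h
      · exact gibbs_exchange_abs hK fun e => hirr p.1 (by simpa [← e] using h.1)
      · simpa [gibbs_zero] using hb0
    rw [show |-(1 / 2 : ℝ)| = 1 / 2 by norm_num]
    linarith
  · intro p _ hp
    rw [if_neg (fun h => hp (hS _ _ h.1 h.2)), gibbs_zero]

lemma logZ_perturb {adj adj' : Λ → Λ → Prop} (hirr : ∀ x, ¬ adj x x)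
    (hsub : ∀ x y, adj' x y → adj x y) (S : Finset (Λ × Λ))
    (hS : ∀ x y, adj x y → ¬ adj' x y → (x, y) ∈ S) {β : ℝ} (hβ : 0 ≤ β) (h : ℝ) :
    |logZ n adj β h - logZ n adj' β h| ≤ β * (exBound n / 2 * S.card) := by
  have hirr' : ∀ x, ¬ adj' x x := fun x hx => hirr x (hsub _ _ hx)
  have hA := gK_isHermitian (n := n) hirr β h
  have hB := gK_isHermitian (n := n) hirr' β h
  have p1 := peierls_bogoliubov hA hB
  have p2 := peierls_bogoliubov hB hA
  have e : gK n adj' β h - gK n adj β h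
      = (β : ℂ) • (hamiltonian n adj - hamiltonian n adj') := by
    simp only [gK]; module
  have e' : gK n adj β h - gK n adj' β h
      = ((-β : ℝ) : ℂ) • (hamiltonian n adj - hamiltonian n adj') := by
    simp only [gK]; push_cast; module
  rw [e, gibbs_smul] at p1
  rw [e', gibbs_smul] at p2
  have b1 := abs_le.1 (gibbs_ham_diff (n := n) hirr hsub hA S hS)
  have b2 := abs_le.1 (gibbs_ham_diff (n := n) hirr hsub hB S hS)
  have c1 := mul_le_mul_of_nonneg_left b1.1 hβ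
  have c2 := mul_le_mul_of_nonneg_left b2.2 hβ
  rw [abs_le]
  simp only [logZ]
  constructor <;> linarith

/-- ℓ¹ adjacency on a rectangular box. -/
def rectAdj (a b c : ℕ) (x y : Fin a × Fin b × Fin c) : Prop :=
  |((x.1 : ℕ) : ℤ) - ((y.1 : ℕ) : ℤ)| + |((x.2.1 : ℕ) : ℤ) - ((y.2.1 : ℕ) : ℤ)|
    + |((x.2.2 : ℕ) : ℤ) - ((y.2.2 : ℕ) : ℤ)| = 1

lemma rectAdj_irrefl (a b c : ℕ) (x : Fin a × Fin b × Fin c) : ¬ rectAdj a b c x x := by
  simp [rectAdj]

/-- log Z of a rectangular box. -/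
noncomputable def rectZ (n : ℕ) (β h : ℝ) (a b c : ℕ) : ℝ := logZ n (rectAdj a b c) β h

lemma rectZ_swap12 (β h : ℝ) (a b c : ℕ) : rectZ n β h a b c = rectZ n β h b a c := by
  refine logZ_relabel ⟨fun x => (x.2.1, x.1, x.2.2), fun x => (x.2.1, x.1, x.2.2), fun _ => rfl,
    fun _ => rfl⟩ (fun x y => ?_) β h
  simp [rectAdj, add_comm]

lemma rectZ_swap13 (β h : ℝ) (a b c : ℕ) : rectZ n β h a b c = rectZ n β h c b a := by
  refine logZ_relabel ⟨fun x => (x.2.2, x.2.1, x.1), fun x => (x.2.2, x.2.1, x.1), fun _ => rfl,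
    fun _ => rfl⟩ (fun x y => ?_) β h
  simp only [rectAdj, Equiv.coe_fn_mk]
  constructor <;> intro H <;> linarith

lemma rectZ_zero (β h : ℝ) (b c : ℕ) : rectZ n β h 0 b c = 0 := logZ_empty _ _ _

lemma rectZ_split {β : ℝ} (hβ : 0 ≤ β) (h : ℝ) (a₁ a₂ b c : ℕ) :
    |rectZ n β h (a₁ + a₂) b c - rectZ n β h a₁ b c - rectZ n β h a₂ b c|
      ≤ β * exBound n * ((b : ℝ) * c) := by
  classical
  let R := Fin b × Fin c
  let e : (Fin a₁ × R) ⊕ (Fin a₂ × R) ≃ Fin (a₁ + a₂) × R :=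
    (Equiv.sumProdDistrib _ _ _).symm.trans (finSumFinEquiv.prodCongr (Equiv.refl _))
  set adjF : (Fin a₁ × R) ⊕ (Fin a₂ × R) → (Fin a₁ × R) ⊕ (Fin a₂ × R) → Prop :=
    fun x y => rectAdj (a₁ + a₂) b c (e x) (e y)
  have h1 : rectZ n β h (a₁ + a₂) b c = logZ n adjF β h :=
    logZ_relabel e (fun x y => Iff.rfl) β h
  have h2 := logZ_sum (n := n) (rectAdj a₁ b c) (rectAdj a₂ b c) (rectAdj_irrefl _ _ _)
    (rectAdj_irrefl _ _ _) β h
  set adjS := sumAdj (rectAdj a₁ b c) (rectAdj a₂ b c)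
  have hirr : ∀ x, ¬ adjF x x := fun x => rectAdj_irrefl _ _ _ _
  have el : ∀ x : Fin a₁ × R, e (Sum.inl x) = (Fin.castAdd a₂ x.1, x.2) := fun x => rfl
  have er : ∀ x : Fin a₂ × R, e (Sum.inr x) = (Fin.natAdd a₁ x.1, x.2) := fun x => rfl
  have hsame : ∀ x y, adjS x y → adjF x y := by
    rintro (x | x) (y | y) hxy <;> simp only [adjS, sumAdj] at hxy
    · simp only [adjF, el, rectAdj] at hxy ⊢
      simpa using hxy
    · simp only [adjF, er, rectAdj] at hxy ⊢
      simpa using hxy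
  let S : Finset (((Fin a₁ × R) ⊕ (Fin a₂ × R)) × ((Fin a₁ × R) ⊕ (Fin a₂ × R))) :=
    Finset.univ.filter fun p => adjF p.1 p.2 ∧ ¬ adjS p.1 p.2
  have hS : ∀ x y, adjF x y → ¬ adjS x y → (x, y) ∈ S := fun x y a a' => by simp [S, a, a']
  have cross : ∀ (x : Fin a₁ × R) (y : Fin a₂ × R),
      (adjF (Sum.inl x) (Sum.inr y) ∨ adjF (Sum.inr y) (Sum.inl x)) →
      (x.1 : ℕ) + 1 = a₁ ∧ (y.1 : ℕ) = 0 ∧ x.2 = y.2 := by
    intro x y hxy
    simp only [adjF, rectAdj, el, er, Fin.val_castAdd, Fin.val_natAdd] at hxy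
    push_cast at hxy
    have := x.1.isLt
    have p1 := abs_nonneg (((x.2.1 : ℕ) : ℤ) - ((y.2.1 : ℕ) : ℤ))
    have p2 := abs_nonneg (((x.2.2 : ℕ) : ℤ) - ((y.2.2 : ℕ) : ℤ))
    have p3 := abs_sub_comm (((x.2.1 : ℕ) : ℤ)) ((y.2.1 : ℕ) : ℤ)
    have p4 := abs_sub_comm (((x.2.2 : ℕ) : ℤ)) ((y.2.2 : ℕ) : ℤ)
    have p5 := abs_sub_comm (((x.1 : ℕ) : ℤ)) ((a₁ : ℤ) + (y.1 : ℕ))
    have p6 : |((x.1 : ℕ) : ℤ) - ((a₁ : ℤ) + (y.1 : ℕ))| = (a₁ : ℤ) + (y.1 : ℕ) - (x.1 : ℕ) := by
      rw [abs_of_neg (by omega)]; ring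
    have p7 : |((x.2.1 : ℕ) : ℤ) - ((y.2.1 : ℕ) : ℤ)| = 0 := by omega
    have p8 : |((x.2.2 : ℕ) : ℤ) - ((y.2.2 : ℕ) : ℤ)| = 0 := by omega
    rw [abs_eq_zero] at p7 p8
    exact ⟨by omega, by omega, Prod.ext (Fin.ext (by omega)) (Fin.ext (by omega))⟩
  have hcard : S.card ≤ (Finset.univ : Finset (R × Bool)).card := by
    refine Finset.card_le_card_of_injOn (fun p => (Sum.elim Prod.snd Prod.snd p.1, p.1.isLeft))
      (fun p _ => Finset.mem_univ _) ?_
    rintro ⟨p, q⟩ hp ⟨p', q'⟩ hp' heq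
    simp only [S, Finset.coe_filter, Finset.mem_univ, true_and] at hp hp'
    change adjF p q ∧ ¬ adjS p q at hp
    change adjF p' q' ∧ ¬ adjS p' q' at hp'
    simp only [Prod.mk.injEq] at heq
    rcases p with x | x <;> rcases q with y | y
    · exact absurd (by simpa [adjS, adjF, sumAdj, rectAdj, el] using hp.1) hp.2
    · rcases p' with x' | x' <;> rcases q' with y' | y'
      · exact absurd (by simpa [adjS, adjF, sumAdj, rectAdj, el] using hp'.1) hp'.2
      · obtain ⟨u1, u2, u3⟩ := cross x y (Or.inl hp.1)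
        obtain ⟨v1, v2, v3⟩ := cross x' y' (Or.inl hp'.1)
        simp only [Sum.elim_inl] at heq
        have w : x.1 = x'.1 := Fin.ext (by omega)
        have w' : y.1 = y'.1 := Fin.ext (by omega)
        simp [Prod.ext_iff, w, w', heq.1, ← u3, ← v3]
      · simp at heq
      · simp at heq
    · rcases p' with x' | x' <;> rcases q' with y' | y'
      · simp at heq
      · simp at heq
      · obtain ⟨u1, u2, u3⟩ := cross y x (Or.inr hp.1)
        obtain ⟨v1, v2, v3⟩ := cross y' x' (Or.inr hp'.1)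
        simp only [Sum.elim_inr] at heq
        have w : y.1 = y'.1 := Fin.ext (by omega)
        have w' : x.1 = x'.1 := Fin.ext (by omega)
        simp [Prod.ext_iff, w, w', heq.1, u3, v3]
      · exact absurd (by simpa [adjS, adjF, sumAdj, rectAdj, er] using hp'.1) hp'.2
    · exact absurd (by simpa [adjS, adjF, sumAdj, rectAdj, er] using hp.1) hp.2
  have hp := logZ_perturb (n := n) hirr hsame S hS hβ h
  rw [← h1, h2] at hp
  have hb0 : 0 ≤ exBound n := by unfold exBound; positivity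
  have hc : (S.card : ℝ) ≤ 2 * ((b : ℝ) * c) := by
    have := hcard
    simp [R] at this
    have h3 : (S.card : ℝ) ≤ ((b * c * 2 : ℕ) : ℝ) := by exact_mod_cast this
    push_cast at h3; linarith
  calc |rectZ n β h (a₁ + a₂) b c - rectZ n β h a₁ b c - rectZ n β h a₂ b c|
      = |rectZ n β h (a₁ + a₂) b c - (rectZ n β h a₁ b c + rectZ n β h a₂ b c)| := by
        congr 1; ring
    _ ≤ β * (exBound n / 2 * S.card) := hp
    _ ≤ β * (exBound n / 2 * (2 * ((b : ℝ) * c))) := by gcongr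
    _ = _ := by ring

lemma rectZ_mult {β : ℝ} (hβ : 0 ≤ β) (h : ℝ) (q M r b c : ℕ) :
    |rectZ n β h (q * M + r) b c - q * rectZ n β h M b c - rectZ n β h r b c|
      ≤ q * (β * exBound n * ((b : ℝ) * c)) := by
  induction q with
  | zero => simp
  | succ q ih =>
    have s := rectZ_split (n := n) hβ h M (q * M + r) b c
    rw [show M + (q * M + r) = (q + 1) * M + r by ring] at s
    rw [abs_le] at ih s ⊢
    push_cast
    constructor <;> linarith

lemma rectZ_abs {β : ℝ} (hβ : 0 ≤ β) (h : ℝ) (a b c : ℕ) :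
    |rectZ n β h a b c| ≤ (3 * (β * exBound n) + |rectZ n β h 1 1 1|) * ((a : ℝ) * b * c) := by
  set K := β * exBound n
  have hK : 0 ≤ K := mul_nonneg hβ (by unfold exBound; positivity)
  have one : ∀ a b c : ℕ, |rectZ n β h a b c| ≤ a * |rectZ n β h 1 b c| + K * ((a : ℝ) * b * c) := by
    intro a b c
    have := rectZ_mult (n := n) hβ h a 1 0 b c
    rw [Nat.mul_one, Nat.add_zero, rectZ_zero, sub_zero] at this
    have t := abs_sub_abs_le_abs_sub (rectZ n β h a b c) ((a : ℝ) * rectZ n β h 1 b c)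
    rw [abs_mul, Nat.abs_cast] at t
    linarith
  have h1 := one a b c
  have h2 := one b 1 c
  rw [← rectZ_swap12 β h 1 b c] at h2
  have h3 := one c 1 1
  rw [← rectZ_swap13 β h 1 1 c] at h3
  have ha : (0 : ℝ) ≤ a := Nat.cast_nonneg a
  have hb : (0 : ℝ) ≤ b := Nat.cast_nonneg b
  have h2' := mul_le_mul_of_nonneg_left h2 ha
  have h3' := mul_le_mul_of_nonneg_left h3 (mul_nonneg ha hb)
  push_cast at h2' h3'
  linarith

lemma cube_compare {β : ℝ} (hβ : 0 ≤ β) (h : ℝ) {C : ℝ} (hC : 0 ≤ C)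
    (hbd : ∀ a b c : ℕ, |rectZ n β h a b c| ≤ C * ((a : ℝ) * b * c))
    {L M : ℕ} (hM : 0 < M) (hML : M ≤ L) :
    |rectZ n β h L L L / (L : ℝ) ^ 3 - rectZ n β h M M M / (M : ℝ) ^ 3|
      ≤ 3 * (β * exBound n) / M + 6 * C * M / L := by
  set K := β * exBound n
  have hK : 0 ≤ K := mul_nonneg hβ (by unfold exBound; positivity)
  set q := L / M
  set r := L % M
  have hqr : q * M + r = L := Nat.div_add_mod' L M
  have hr : (r : ℝ) ≤ M := by exact_mod_cast (Nat.mod_lt L hM).le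
  have hr0 : (0 : ℝ) ≤ r := Nat.cast_nonneg _
  have hMr : (0 : ℝ) < M := Nat.cast_pos.2 hM
  have hLr : (0 : ℝ) < L := Nat.cast_pos.2 (lt_of_lt_of_le hM hML)
  have hQ : (q : ℝ) * M + r = L := by exact_mod_cast hqr
  have hq0 : (0 : ℝ) ≤ q := Nat.cast_nonneg _
  have a1 := rectZ_mult (n := n) hβ h q M r L L
  have a2 := rectZ_mult (n := n) hβ h q M r M L
  have a3 := rectZ_mult (n := n) hβ h q M r M M
  rw [hqr] at a1 a2 a3
  rw [rectZ_swap12 β h L M L] at a2
  rw [rectZ_swap13 β h L M M] at a3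
  have tri : ∀ {x y z e g : ℝ}, |x - y - z| ≤ e → |z| ≤ g → |x - y| ≤ e + g := by
    intro x y z e g h1 h2
    calc |x - y| = |(x - y - z) + z| := by rw [sub_add_cancel]
      _ ≤ _ := (abs_add_le _ _).trans (add_le_add h1 h2)
  have d1 := tri a1 (hbd r L L)
  have d2 := tri a2 (hbd r M L)
  have d3 := tri a3 (hbd r M M)
  rw [rectZ_swap12 β h M M L] at d2
  set E := ((q : ℝ) * (K * ((L : ℝ) * L)) + C * ((r : ℝ) * L * L))
    + q * (q * (K * ((M : ℝ) * L)) + C * ((r : ℝ) * M * L))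
    + q * q * (q * (K * ((M : ℝ) * M)) + C * ((r : ℝ) * M * M)) with hE
  have main : |rectZ n β h L L L - (q : ℝ) ^ 3 * rectZ n β h M M M| ≤ E := by
    have e : rectZ n β h L L L - (q : ℝ) ^ 3 * rectZ n β h M M M
        = (rectZ n β h L L L - q * rectZ n β h M L L)
          + q * (rectZ n β h M L L - q * rectZ n β h M M L)
          + q * q * (rectZ n β h M M L - q * rectZ n β h M M M) := by ring
    rw [e, hE]
    refine (abs_add_le _ _).trans (add_le_add ((abs_add_le _ _).trans (add_le_add d1 ?_)) ?_)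
    · rw [abs_mul, abs_of_nonneg hq0]
      exact mul_le_mul_of_nonneg_left d2 hq0
    · rw [abs_mul, abs_of_nonneg (mul_nonneg hq0 hq0)]
      exact mul_le_mul_of_nonneg_left d3 (mul_nonneg hq0 hq0)
  set u := (q : ℝ) * M / L with hu
  have hu0 : 0 ≤ u := by positivity
  have hu1 : u ≤ 1 := by rw [hu, div_le_one hLr]; linarith
  have hue : 1 - u ≤ (M : ℝ) / L := by
    rw [hu, le_div_iff₀ hLr, sub_mul, div_mul_cancel₀ _ hLr.ne']; linarith
  have e1 : E / (L : ℝ) ^ 3 = (K / M) * (u + u ^ 2 + u ^ 3) + (C * r / L) * (1 + u + u ^ 2) := by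
    rw [hE, hu]; field_simp; try ring
  have e2 : rectZ n β h L L L / (L : ℝ) ^ 3 - rectZ n β h M M M / (M : ℝ) ^ 3
      = (rectZ n β h L L L - (q : ℝ) ^ 3 * rectZ n β h M M M) / (L : ℝ) ^ 3
        + (rectZ n β h M M M / (M : ℝ) ^ 3) * (u ^ 3 - 1) := by
    rw [hu]; field_simp; try ring
  have hf : |rectZ n β h M M M / (M : ℝ) ^ 3| ≤ C := by
    rw [abs_div, abs_of_pos (pow_pos hMr 3), div_le_iff₀ (pow_pos hMr 3)]
    exact (hbd M M M).trans (le_of_eq (by ring))
  have t1 : |(rectZ n β h L L L - (q : ℝ) ^ 3 * rectZ n β h M M M) / (L : ℝ) ^ 3|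
      ≤ 3 * (K / M) + 3 * (C * M / L) := by
    rw [abs_div, abs_of_pos (pow_pos hLr 3)]
    refine (div_le_div_of_nonneg_right main (pow_pos hLr 3).le).trans (e1.le.trans ?_)
    have p2 : u ^ 2 ≤ 1 := pow_le_one₀ hu0 hu1
    have p3 : u ^ 3 ≤ 1 := pow_le_one₀ hu0 hu1
    have w1 : u + u ^ 2 + u ^ 3 ≤ 3 := by linarith only [hu1, p2, p3]
    have w2 : 1 + u + u ^ 2 ≤ 3 := by linarith only [hu1, p2]
    have w3 := mul_le_mul_of_nonneg_left w1 (by positivity : 0 ≤ K / M)
    have w4 : C * r / L * (1 + u + u ^ 2) ≤ C * M / L * 3 :=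
      mul_le_mul (by gcongr) w2 (by positivity) (by positivity)
    linarith
  have t2 : |(rectZ n β h M M M / (M : ℝ) ^ 3) * (u ^ 3 - 1)| ≤ 3 * (C * M / L) := by
    rw [abs_mul]
    have : |u ^ 3 - 1| ≤ 3 * ((M : ℝ) / L) := by
      rw [abs_le]
      have p2 : u ^ 2 ≤ 1 := pow_le_one₀ hu0 hu1
      have p3 : u ^ 3 ≤ 1 := pow_le_one₀ hu0 hu1
      have p4 : (1 - u) * (1 + u + u ^ 2) ≤ (1 - u) * 3 :=
        mul_le_mul_of_nonneg_left (by linarith only [hu1, p2]) (sub_nonneg.2 hu1)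
      have p5 : 0 ≤ (M : ℝ) / L := by positivity
      constructor
      · linear_combination p4 + 3 * hue
      · linarith only [p3, p5]
    refine (mul_le_mul hf this (abs_nonneg _) hC).trans (le_of_eq (by ring))
  rw [e2]
  refine (abs_add_le _ _).trans ((add_le_add t1 t2).trans (le_of_eq (by ring)))

lemma cube_tendsto {β : ℝ} (hβ : 0 ≤ β) (h : ℝ) :
    ∃ l, Filter.Tendsto (fun L : ℕ => rectZ n β h L L L / (L : ℝ) ^ 3) Filter.atTop (nhds l) := by
  refine cauchySeq_tendsto_of_complete ?_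
  set C := 3 * (β * exBound n) + |rectZ n β h 1 1 1|
  have hK : 0 ≤ β * exBound n := mul_nonneg hβ (by unfold exBound; positivity)
  have hC : 0 ≤ C := by positivity
  rw [Metric.cauchySeq_iff']
  intro ε hε
  obtain ⟨M, hM⟩ := exists_nat_gt (12 * (β * exBound n) / ε + 1)
  have hMpos : (0 : ℝ) < M := lt_of_le_of_lt (by positivity) hM
  have hMn : 0 < M := by exact_mod_cast hMpos
  obtain ⟨L₀, hL₀⟩ := exists_nat_gt (24 * C * M / ε + M + 1)
  have hLpos : (0 : ℝ) < L₀ := lt_of_le_of_lt (by positivity) hL₀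
  refine ⟨L₀, fun L hL => ?_⟩
  have key : ∀ L', L₀ ≤ L' →
      |rectZ n β h L' L' L' / (L' : ℝ) ^ 3 - rectZ n β h M M M / (M : ℝ) ^ 3| < ε / 2 := by
    intro L' hL'
    have hL'r : (L₀ : ℝ) ≤ L' := by exact_mod_cast hL'
    have hnn : 0 ≤ 24 * C * M / ε := by positivity
    have hML : M ≤ L' := by
      have : (M : ℝ) ≤ L' := by linarith
      exact_mod_cast this
    refine lt_of_le_of_lt (cube_compare hβ h hC (rectZ_abs hβ h) hMn hML) ?_
    have h1 : 3 * (β * exBound n) / M < ε / 4 := by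
      rw [div_lt_iff₀ hMpos]
      have := (div_lt_iff₀ hε).1 (by linarith : 12 * (β * exBound n) / ε < M)
      linarith
    have h2 : 6 * C * M / L' < ε / 4 := by
      rw [div_lt_iff₀ (lt_of_lt_of_le hLpos hL'r)]
      have := (div_lt_iff₀ hε).1 (by linarith : 24 * C * M / ε < L')
      linarith
    linarith
  rw [Real.dist_eq]
  have := abs_sub_lt_iff.1 (key L hL)
  have := abs_sub_lt_iff.1 (key L₀ le_rfl)
  rw [abs_sub_lt_iff]
  constructor <;> linarith

lemma box_eq_rect (L : ℕ) (β h : ℝ) : logZ n (boxAdj L) β h = rectZ n β h L L L := by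
  refine logZ_relabel ⟨fun x => ![x.1, x.2.1, x.2.2], fun x => (x 0, x 1, x 2), fun _ => rfl,
    fun x => by funext i; fin_cases i <;> rfl⟩ (fun x y => ?_) β h
  show boxAdj L ![x.1, x.2.1, x.2.2] ![y.1, y.2.1, y.2.2] ↔ _
  simp [boxAdj, rectAdj, Fin.sum_univ_three]

theorem pressure_exists (n : ℕ) {β : ℝ} (hβ : 0 < β) (h : ℝ) :
    Filter.Tendsto (fun N => finitePressure n N β h) Filter.atTop (nhds (pressure n β h)) := by
  obtain ⟨l, hl⟩ := cube_tendsto (n := n) hβ.le h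
  have h1 : Filter.Tendsto (fun N : ℕ => finitePressure n N β h) Filter.atTop (nhds (l / β)) := by
    have := (hl.comp (Filter.tendsto_atTop_mono (fun N : ℕ => (by omega : N ≤ 2 * N + 1))
      Filter.tendsto_id)).div_const β
    refine this.congr fun N => ?_
    simp only [Function.comp_apply]
    rw [← box_eq_rect, div_div, mul_comm _ β]
    rfl
  rw [pressure, h1.limUnder_eq]
  exact h1

end Vale.Agent.P361
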