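import Mathlib

/-!
Gibbs states of Hermitian matrices: Peierls-Bogoliubov and the Falk-Bruch tangent inequality.
-/

namespace Vale.Agent.P361

open scoped Matrix BigOperators
open Matrix

variable {ι : Type*} [Fintype ι] [DecidableEq ι]

noncomputable def part (K : Matrix ι ι ℂ) : ℝ := (NormedSpace.exp K).trace.re

noncomputable def gibbs (K O : Matrix ι ι ℂ) : ℝ :=
  ((NormedSpace.exp K) * O).trace.re / part K

/-- Pointwise tangent inequality behind the Falk-Bruch inequality. -/
lemma tangent_cosh {x₀ u : ℝ} :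
    Real.sinh u * (Real.cosh x₀ * Real.sinh x₀ + x₀ - u) ≤ Real.cosh u * Real.sinh x₀ ^ 2 := by
  set f : ℝ → ℝ := fun u => Real.cosh u * Real.sinh x₀ ^ 2
    - Real.sinh u * (Real.cosh x₀ * Real.sinh x₀ + x₀ - u) with hf
  have hd : ∀ t, HasDerivAt f
      (Real.cosh x₀ * Real.sinh (t - x₀) + (t - x₀) * Real.cosh t) t := by
    intro t
    have h1 : HasDerivAt f _ t := ((Real.hasDerivAt_cosh t).mul_const (Real.sinh x₀ ^ 2)).sub
      ((Real.hasDerivAt_sinh t).mul
        ((hasDerivAt_id t).const_sub (Real.cosh x₀ * Real.sinh x₀ + x₀)))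
    convert h1 using 1
    rw [Real.sinh_sub]
    linear_combination (Real.sinh t) * Real.cosh_sq x₀
  have hdf : Differentiable ℝ f := fun t => (hd t).differentiableAt
  have key : f x₀ ≤ f u := by
    rcases le_total x₀ u with h | h
    · refine monotoneOn_of_deriv_nonneg (convex_Icc x₀ u) hdf.continuous.continuousOn
        hdf.differentiableOn ?_ (Set.left_mem_Icc.2 h) (Set.right_mem_Icc.2 h) h
      intro t ht
      rw [interior_Icc] at ht
      rw [(hd t).deriv]
      have h0 : (0:ℝ) ≤ t - x₀ := by linarith [ht.1]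
      have := Real.sinh_nonneg_iff.2 h0
      positivity
    · refine antitoneOn_of_deriv_nonpos (convex_Icc u x₀) hdf.continuous.continuousOn
        hdf.differentiableOn ?_ (Set.left_mem_Icc.2 h) (Set.right_mem_Icc.2 h) h
      intro t ht
      rw [interior_Icc] at ht
      rw [(hd t).deriv]
      have h0 : t - x₀ ≤ 0 := by linarith [ht.2]
      have h1 := Real.sinh_nonpos_iff.2 h0
      have h2 := Real.cosh_pos x₀
      have h3 := Real.cosh_pos t
      nlinarith
  have h0 : f x₀ = 0 := by simp only [hf]; ring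
  simp only [hf] at key h0
  linarith

lemma tangent_exp {x₀ : ℝ} (hx : 0 < x₀) (a b : ℝ) :
    (Real.cosh x₀ / Real.sinh x₀ + x₀ / Real.sinh x₀ ^ 2) * |Real.exp a - Real.exp b|
      - (a - b) * (Real.exp a - Real.exp b) / (2 * Real.sinh x₀ ^ 2)
      ≤ Real.exp a + Real.exp b := by
  wlog h : b ≤ a generalizing a b
  · have := this b a (le_of_not_ge h)
    rw [abs_sub_comm, add_comm (Real.exp b)] at this
    convert this using 2
    ring
  have hs : 0 < Real.sinh x₀ := Real.sinh_pos_iff.2 hx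
  obtain ⟨m, u, rfl, rfl⟩ : ∃ m u : ℝ, a = m + u ∧ b = m - u :=
    ⟨(a + b) / 2, (a - b) / 2, by ring, by ring⟩
  have e1 : Real.exp (m + u) - Real.exp (m - u) = 2 * Real.exp m * Real.sinh u := by
    rw [Real.sinh_eq, Real.exp_add, sub_eq_add_neg m u, Real.exp_add]; ring
  have e2 : Real.exp (m + u) + Real.exp (m - u) = 2 * Real.exp m * Real.cosh u := by
    rw [Real.cosh_eq, Real.exp_add, sub_eq_add_neg m u, Real.exp_add]; ring
  rw [abs_of_nonneg (sub_nonneg.2 (Real.exp_le_exp.2 h)), e1, e2]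
  have key := mul_le_mul_of_nonneg_left (tangent_cosh (x₀ := x₀) (u := u))
    (by positivity : (0:ℝ) ≤ 2 * Real.exp m / Real.sinh x₀ ^ 2)
  have e3 : Real.cosh x₀ / Real.sinh x₀ = Real.cosh x₀ * Real.sinh x₀ / Real.sinh x₀ ^ 2 := by
    rw [pow_two, mul_div_mul_right _ _ hs.ne']
  have e4 : Real.sinh x₀ ^ 2 / Real.sinh x₀ ^ 2 = 1 := div_self (pow_ne_zero 2 hs.ne')
  refine le_of_eq_of_le ?_ (key.trans_eq ?_)
  · rw [e3]
    ring
  · linear_combination (2 * Real.exp m * Real.cosh u) * e4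

section Eigen

variable {K : Matrix ι ι ℂ} (hK : K.IsHermitian)

/-- An operator written in the eigenbasis of K. -/
noncomputable def rot (O : Matrix ι ι ℂ) : Matrix ι ι ℂ :=
  (hK.eigenvectorUnitary : Matrix ι ι ℂ)ᴴ * O * (hK.eigenvectorUnitary : Matrix ι ι ℂ)

lemma rot_mul (A B : Matrix ι ι ℂ) : rot hK (A * B) = rot hK A * rot hK B := by
  have h : (hK.eigenvectorUnitary : Matrix ι ι ℂ) * (hK.eigenvectorUnitary : Matrix ι ι ℂ)ᴴ = 1 :=
    Unitary.coe_mul_star_self hK.eigenvectorUnitary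
  simp only [rot, Matrix.mul_assoc]
  rw [← Matrix.mul_assoc (hK.eigenvectorUnitary : Matrix ι ι ℂ) _ᴴ, h, Matrix.one_mul]

lemma rot_conjTranspose (A : Matrix ι ι ℂ) : rot hK Aᴴ = (rot hK A)ᴴ := by
  simp [rot, Matrix.conjTranspose_mul, Matrix.mul_assoc]

lemma rot_sub (A B : Matrix ι ι ℂ) : rot hK (A - B) = rot hK A - rot hK B := by
  simp [rot, Matrix.mul_sub, Matrix.sub_mul]

lemma rot_self : rot hK K = diagonal fun i => (hK.eigenvalues i : ℂ) := by
  have := hK.conjStarAlgAut_star_eigenvectorUnitary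
  simp only [Unitary.conjStarAlgAut_star_apply] at this
  exact this

lemma exp_eq :
    NormedSpace.exp K = (hK.eigenvectorUnitary : Matrix ι ι ℂ)
      * diagonal (fun i => ((Real.exp (hK.eigenvalues i) : ℝ) : ℂ))
      * (hK.eigenvectorUnitary : Matrix ι ι ℂ)ᴴ := by
  have h1 : (hK.eigenvectorUnitary : Matrix ι ι ℂ)⁻¹ = (hK.eigenvectorUnitary : Matrix ι ι ℂ)ᴴ :=
    Matrix.inv_eq_right_inv (Unitary.coe_mul_star_self hK.eigenvectorUnitary)
  conv_lhs => rw [hK.spectral_theorem]
  rw [Unitary.conjStarAlgAut_apply, star_eq_conjTranspose, ← h1,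
    Matrix.exp_conj (hK.eigenvectorUnitary : Matrix ι ι ℂ) _
      ⟨Unitary.toUnits hK.eigenvectorUnitary, rfl⟩,
    Matrix.exp_diagonal]
  congr 2
  ext i j
  by_cases h : i = j
  · subst h
    simp [Pi.coe_exp, Complex.ofReal_exp, Complex.exp_eq_exp_ℂ]
  · simp [h]

lemma trace_exp_mul (O : Matrix ι ι ℂ) :
    (NormedSpace.exp K * O).trace
      = ∑ i, ((Real.exp (hK.eigenvalues i) : ℝ) : ℂ) * rot hK O i i := by
  rw [exp_eq hK, Matrix.mul_assoc, Matrix.trace_mul_comm, ← Matrix.mul_assoc]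
  rw [Matrix.trace_mul_comm]
  simp [rot, Matrix.trace, Matrix.diagonal_mul]

lemma trace_exp : (NormedSpace.exp K).trace = ∑ i, ((Real.exp (hK.eigenvalues i) : ℝ) : ℂ) := by
  have h := trace_exp_mul hK 1
  have e : rot hK (1 : Matrix ι ι ℂ) = 1 := by
    simp only [rot, Matrix.mul_one]
    exact Unitary.coe_star_mul_self hK.eigenvectorUnitary
  simpa [e] using h

lemma part_eq : part K = ∑ i, Real.exp (hK.eigenvalues i) := by
  simp [part, trace_exp hK, Complex.exp_ofReal_re]

include hK in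
lemma part_pos [Nonempty ι] : 0 < part K := by
  rw [part_eq hK]
  exact Finset.sum_pos (fun i _ => Real.exp_pos _) Finset.univ_nonempty

lemma gibbs_eq (O : Matrix ι ι ℂ) :
    gibbs K O = (∑ i, Real.exp (hK.eigenvalues i) * (rot hK O i i).re) / part K := by
  simp [gibbs, trace_exp_mul hK, Complex.exp_ofReal_re]

end Eigen

variable {K : Matrix ι ι ℂ}

lemma gibbs_add (K A B : Matrix ι ι ℂ) : gibbs K (A + B) = gibbs K A + gibbs K B := by
  simp [gibbs, Matrix.mul_add, add_div]

lemma gibbs_sub (K A B : Matrix ι ι ℂ) : gibbs K (A - B) = gibbs K A - gibbs K B := by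
  simp [gibbs, Matrix.mul_sub, sub_div]

lemma gibbs_neg (K A : Matrix ι ι ℂ) : gibbs K (-A) = -gibbs K A := by
  simp [gibbs, neg_div]

lemma gibbs_smul (K A : Matrix ι ι ℂ) (r : ℝ) : gibbs K ((r : ℂ) • A) = r * gibbs K A := by
  simp [gibbs, mul_div_assoc]

lemma gibbs_sum {α : Type*} (K : Matrix ι ι ℂ) (s : Finset α) (A : α → Matrix ι ι ℂ) :
    gibbs K (∑ a ∈ s, A a) = ∑ a ∈ s, gibbs K (A a) := by
  simp [gibbs, Matrix.mul_sum, Matrix.trace_sum, Finset.sum_div]

lemma gibbs_zero (K : Matrix ι ι ℂ) : gibbs K 0 = 0 := by simp [gibbs]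

lemma gibbs_one (hK : K.IsHermitian) [Nonempty ι] : gibbs K 1 = 1 := by
  have h := part_pos hK
  simp only [gibbs, part, Matrix.mul_one] at h ⊢
  exact div_self h.ne'

lemma gibbs_star_mul_self (hK : K.IsHermitian) (A : Matrix ι ι ℂ) :
    0 ≤ gibbs K (Aᴴ * A) := by
  rw [gibbs_eq hK, part_eq hK]
  refine div_nonneg (Finset.sum_nonneg fun i _ => mul_nonneg (Real.exp_nonneg _) ?_)
    (Finset.sum_nonneg fun i _ => Real.exp_nonneg _)
  rw [rot_mul, rot_conjTranspose, Matrix.mul_apply, Complex.re_sum]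
  refine Finset.sum_nonneg fun j _ => ?_
  rw [Matrix.conjTranspose_apply, Complex.star_def, ← Complex.normSq_eq_conj_mul_self]
  simpa using Complex.normSq_nonneg _

lemma gibbs_diagonal_le (hK : K.IsHermitian) [Nonempty ι] {d : ι → ℝ} {c : ℝ}
    (hd : ∀ i, d i ≤ c) : gibbs K (diagonal fun i => (d i : ℂ)) ≤ c := by
  have h := gibbs_star_mul_self hK (diagonal fun i => ((Real.sqrt (c - d i) : ℝ) : ℂ))
  have e : (diagonal fun i => ((Real.sqrt (c - d i) : ℝ) : ℂ))ᴴ
      * (diagonal fun i => ((Real.sqrt (c - d i) : ℝ) : ℂ))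
      = (c : ℂ) • (1 : Matrix ι ι ℂ) - diagonal fun i => (d i : ℂ) := by
    ext i j
    by_cases hij : i = j
    · subst hij
      simp [← Complex.ofReal_mul, Real.mul_self_sqrt (sub_nonneg.2 (hd i))]
    · simp [hij]
  rw [e, gibbs_sub, gibbs_smul, gibbs_one hK] at h
  linarith

/-- Peierls-Bogoliubov inequality. -/
lemma peierls_bogoliubov {A B : Matrix ι ι ℂ} (hA : A.IsHermitian) (hB : B.IsHermitian)
    [Nonempty ι] : Real.log (part A) + gibbs A (B - A) ≤ Real.log (part B) := by
  set a := hA.eigenvalues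
  set b := hB.eigenvalues
  set W : Matrix ι ι ℂ := (hB.eigenvectorUnitary : Matrix ι ι ℂ)ᴴ
    * (hA.eigenvectorUnitary : Matrix ι ι ℂ) with hW
  have hW1 : Wᴴ * W = 1 := by
    have h1 : (hB.eigenvectorUnitary : Matrix ι ι ℂ) * (hB.eigenvectorUnitary : Matrix ι ι ℂ)ᴴ = 1 :=
      Unitary.coe_mul_star_self hB.eigenvectorUnitary
    simp only [hW, Matrix.conjTranspose_mul, Matrix.conjTranspose_conjTranspose, Matrix.mul_assoc]
    rw [← Matrix.mul_assoc (hB.eigenvectorUnitary : Matrix ι ι ℂ), h1, Matrix.one_mul]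
    exact Unitary.coe_star_mul_self hA.eigenvectorUnitary
  have hW2 : W * Wᴴ = 1 := mul_eq_one_comm.1 hW1
  have hsum : ∀ i, ∑ j, Complex.normSq (W j i) = 1 := by
    intro i
    have := congrArg (fun M : Matrix ι ι ℂ => (M i i).re) hW1
    simpa [Matrix.mul_apply, Complex.normSq_apply] using this
  have hsum' : ∀ j, ∑ i, Complex.normSq (W j i) = 1 := by
    intro j
    have := congrArg (fun M : Matrix ι ι ℂ => (M j j).re) hW2
    simpa [Matrix.mul_apply, Complex.normSq_apply] using this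
  have hBd : ∀ i, (rot hA B i i).re = ∑ j, Complex.normSq (W j i) * b j := by
    intro i
    have e : rot hA B = Wᴴ * (diagonal fun j => (b j : ℂ)) * W := by
      conv_lhs => rw [hB.spectral_theorem]
      simp [rot, hW, b, Unitary.conjStarAlgAut_apply, Matrix.mul_assoc, star_eq_conjTranspose,
        Function.comp_def]
    rw [e, Matrix.mul_apply, Complex.re_sum]
    refine Finset.sum_congr rfl fun j _ => ?_
    rw [Matrix.mul_diagonal, Matrix.conjTranspose_apply, Complex.star_def, mul_right_comm,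
      ← Complex.normSq_eq_conj_mul_self, ← Complex.ofReal_mul, Complex.ofReal_re]
  set q : ι → ℝ := fun i => (rot hA B i i).re
  have h1 : ∑ i, Real.exp (q i) ≤ part B := by
    rw [part_eq hB]
    calc ∑ i, Real.exp (q i) ≤ ∑ i, ∑ j, Complex.normSq (W j i) * Real.exp (b j) := by
          refine Finset.sum_le_sum fun i _ => ?_
          simp only [q]
          rw [hBd]
          exact convexOn_exp.map_sum_le (fun j _ => Complex.normSq_nonneg _) (hsum i)
            (fun j _ => Set.mem_univ _)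
      _ = ∑ j, Real.exp (b j) := by
          rw [Finset.sum_comm]
          simp [← Finset.sum_mul, hsum']
  have hZ := part_pos hA
  have hz : ∑ i, Real.exp (a i) / part A = 1 := by
    rw [← Finset.sum_div, ← part_eq hA, div_self hZ.ne']
  have h2 : Real.exp (∑ i, Real.exp (a i) / part A * (q i - a i))
      ≤ ∑ i, Real.exp (a i) / part A * Real.exp (q i - a i) :=
    convexOn_exp.map_sum_le (fun i _ => div_nonneg (Real.exp_nonneg _) hZ.le) hz
      (fun i _ => Set.mem_univ _)
  have e1 : ∑ i, Real.exp (a i) / part A * (q i - a i) = gibbs A (B - A) := by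
    rw [gibbs_eq hA, Finset.sum_div]
    refine Finset.sum_congr rfl fun i _ => ?_
    simp [rot_sub, rot_self, q, a, mul_div_right_comm]
  have e2 : ∑ i, Real.exp (a i) / part A * Real.exp (q i - a i) = (∑ i, Real.exp (q i)) / part A := by
    rw [Finset.sum_div]
    refine Finset.sum_congr rfl fun i _ => ?_
    rw [Real.exp_sub]
    field_simp
  rw [e1, e2] at h2
  have h3 : Real.exp (gibbs A (B - A)) ≤ part B / part A :=
    h2.trans (div_le_div_of_nonneg_right h1 hZ.le)
  have h4 := Real.log_le_log (Real.exp_pos _) h3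
  rw [Real.log_exp, Real.log_div (part_pos hB).ne' hZ.ne'] at h4
  linarith

/-- The Falk-Bruch inequality in tangent-line form. -/
lemma falk_bruch (hK : K.IsHermitian) [Nonempty ι] (A : Matrix ι ι ℂ) {x₀ : ℝ} (hx : 0 < x₀) :
    (Real.cosh x₀ / Real.sinh x₀ + x₀ / Real.sinh x₀ ^ 2) * gibbs K (A * Aᴴ - Aᴴ * A)
      - gibbs K ((K * A - A * K) * Aᴴ - Aᴴ * (K * A - A * K)) / (2 * Real.sinh x₀ ^ 2)
      ≤ gibbs K (A * Aᴴ + Aᴴ * A) := by
  set l := hK.eigenvalues
  set T := rot hK A
  set C := Real.cosh x₀ / Real.sinh x₀ + x₀ / Real.sinh x₀ ^ 2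
  have hs : 0 < Real.sinh x₀ := Real.sinh_pos_iff.2 hx
  have hC : 0 ≤ C := by positivity
  have hZ := part_pos hK
  have h1 : ∀ X Y : Matrix ι ι ℂ, ∀ w : ι → ι → ℝ,
      (∀ i j, (rot hK X i j * star (T i j)).re = w i j) →
      (rot hK Y = rot hK X) →
      gibbs K (X * Aᴴ) = (∑ i, ∑ j, Real.exp (l i) * w i j) / part K ∧
      gibbs K (Aᴴ * Y) = (∑ i, ∑ j, Real.exp (l j) * w i j) / part K := by
    intro X Y w hw hY
    constructor
    · rw [gibbs_eq hK]
      congr 1
      refine Finset.sum_congr rfl fun i _ => ?_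
      simp [rot_mul, rot_conjTranspose, Matrix.mul_apply, Finset.mul_sum, ← hw, T, l]
    · rw [gibbs_eq hK, Finset.sum_comm]
      congr 1
      refine Finset.sum_congr rfl fun j _ => ?_
      rw [rot_mul, rot_conjTranspose, hY, Matrix.mul_apply, Complex.re_sum, Finset.mul_sum]
      refine Finset.sum_congr rfl fun i _ => ?_
      rw [← hw i j, Matrix.conjTranspose_apply, mul_comm (star _)]
  obtain ⟨p1, p2⟩ := h1 A A (fun i j => Complex.normSq (T i j))
    (fun i j => by
      show (T i j * star (T i j)).re = _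
      rw [Complex.star_def, Complex.mul_conj, Complex.ofReal_re]) rfl
  obtain ⟨p3, p4⟩ := h1 (K * A - A * K) (K * A - A * K)
    (fun i j => (l i - l j) * Complex.normSq (T i j))
    (fun i j => by
      rw [rot_sub, rot_mul, rot_mul, rot_self, Matrix.sub_apply, Matrix.diagonal_mul,
        Matrix.mul_diagonal]
      show (((l i : ℂ) * T i j - T i j * (l j : ℂ)) * star (T i j)).re = _
      rw [mul_comm (T i j) (l j : ℂ), ← sub_mul, mul_assoc, Complex.star_def, Complex.mul_conj,
        ← Complex.ofReal_sub, ← Complex.ofReal_mul, Complex.ofReal_re]) rfl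
  rw [gibbs_sub, gibbs_sub, gibbs_add, p1, p2, p3, p4]
  have key : ∀ i j, C * ((Real.exp (l i) - Real.exp (l j)) * Complex.normSq (T i j))
      - (Real.exp (l i) - Real.exp (l j)) * ((l i - l j) * Complex.normSq (T i j))
          / (2 * Real.sinh x₀ ^ 2)
      ≤ (Real.exp (l i) + Real.exp (l j)) * Complex.normSq (T i j) := by
    intro i j
    have t := mul_le_mul_of_nonneg_right (tangent_exp hx (l i) (l j))
      (Complex.normSq_nonneg (T i j))
    refine le_trans ?_ t
    have := mul_le_mul_of_nonneg_left (mul_le_mul_of_nonneg_right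
      (le_abs_self (Real.exp (l i) - Real.exp (l j))) (Complex.normSq_nonneg (T i j))) hC
    have e : (Real.exp (l i) - Real.exp (l j)) * ((l i - l j) * Complex.normSq (T i j))
          / (2 * Real.sinh x₀ ^ 2)
        = (l i - l j) * (Real.exp (l i) - Real.exp (l j)) / (2 * Real.sinh x₀ ^ 2)
          * Complex.normSq (T i j) := by ring
    rw [e, sub_mul]
    linarith
  have := div_le_div_of_nonneg_right
    (Finset.sum_le_sum fun i (_ : i ∈ Finset.univ) =>
      Finset.sum_le_sum fun j (_ : j ∈ Finset.univ) => key i j) hZ.le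
  have e : ∀ (c : ℝ) (F : ι → ι → ℝ), ∑ i, ∑ j, c * F i j = c * ∑ i, ∑ j, F i j := by
    intro c F; simp [Finset.mul_sum]
  simp only [Finset.sum_sub_distrib, ← Finset.sum_div, sub_mul, add_mul,
    Finset.sum_add_distrib, mul_sub, e] at this
  simp only [mul_sub] at this ⊢
  refine le_of_eq_of_le ?_ (this.trans_eq ?_)
  all_goals try simp only [sub_mul, mul_sub, Finset.sum_sub_distrib]
  all_goals ring

end Vale.Agent.P361
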