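import Vale.Agent.P361.Exist
import Vale.Agent.P361.Box

/-!
The sharp one-sided Bloch law.
-/

namespace Vale.Agent.P361

open scoped Matrix BigOperators Topology
open Matrix Filter

lemma finitePressure_eq (n N : ℕ) (β h : ℝ) :
    finitePressure n N β h
      = Real.log (part (gK n (boxAdj (2 * N + 1)) β h)) / (β * (((2 * N + 1 : ℕ) : ℝ) ^ 3)) := rfl

lemma finite_subgradient (n N : ℕ) {β : ℝ} (hβ : 0 < β) (x y : ℝ) :
    finitePressure n N β x + (y - x) * (totalMag n N β x / (((2 * N + 1 : ℕ) : ℝ) ^ 3))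
      ≤ finitePressure n N β y := by
  have hA := gK_isHermitian (n := n) (boxAdj_irrefl (2 * N + 1)) β x
  have hB := gK_isHermitian (n := n) (boxAdj_irrefl (2 * N + 1)) β y
  have p := peierls_bogoliubov hA hB
  have e : gK n (boxAdj (2 * N + 1)) β y - gK n (boxAdj (2 * N + 1)) β x
      = ((β * (y - x) : ℝ) : ℂ) • magnetization n := by
    simp only [gK]; push_cast; module
  rw [e, gibbs_smul] at p
  have hV : (0 : ℝ) < β * (((2 * N + 1 : ℕ) : ℝ) ^ 3) := by positivity
  have q := div_le_div_of_nonneg_right p hV.le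
  rw [finitePressure_eq, finitePressure_eq, totalMag]
  refine le_trans (le_of_eq ?_) q
  field_simp

lemma pressure_convexOn (n : ℕ) {β : ℝ} (hβ : 0 < β) :
    ConvexOn ℝ Set.univ (pressure n β) := by
  refine ⟨convex_univ, fun x _ y _ a b ha hb hab => ?_⟩
  have hlim := ((pressure_exists n hβ x).const_mul a).add ((pressure_exists n hβ y).const_mul b)
  refine le_of_tendsto_of_tendsto' (pressure_exists n hβ (a • x + b • y)) hlim fun N => ?_
  set z := a • x + b • y with hz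
  simp only [smul_eq_mul] at hz
  set g := totalMag n N β z / (((2 * N + 1 : ℕ) : ℝ) ^ 3)
  have h1 := mul_le_mul_of_nonneg_left (finite_subgradient n N hβ z x) ha
  have h2 := mul_le_mul_of_nonneg_left (finite_subgradient n N hβ z y) hb
  calc finitePressure n N β z
      = a * (finitePressure n N β z + (x - z) * g) + b * (finitePressure n N β z + (y - z) * g) := by
        linear_combination (-(finitePressure n N β z) + z * g) * hab + g * hz
    _ ≤ _ := add_le_add h1 h2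

lemma spontMag_hasDeriv (n : ℕ) {β : ℝ} (hβ : 0 < β) :
    HasDerivWithinAt (pressure n β) (spontMag n β) (Set.Ioi 0) 0 :=
  (pressure_convexOn n hβ).hasDerivWithinAt_rightDeriv_of_mem_interior (by simp)

lemma spontMag_le_slope (n : ℕ) {β h : ℝ} (hβ : 0 < β) (hh : 0 < h) :
    spontMag n β ≤ (pressure n β h - pressure n β 0) / h := by
  have hc := pressure_convexOn n hβ
  have h0 : (0 : ℝ) ∈ interior (Set.univ : Set ℝ) := by simp
  have e := (hc.hasDerivWithinAt_sInf_slope_of_mem_interior h0).derivWithin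
    (uniqueDiffWithinAt_Ioi 0)
  rw [spontMag, e]
  refine csInf_le (bddBelow_slope_lt_of_mem_interior hc h0) ⟨h, ⟨Set.mem_univ _, hh⟩, ?_⟩
  rw [slope_def_field, sub_zero]

/-- The coefficient R(η) of the effective dispersion. -/
noncomputable def coefR (n : ℕ) (η : ℝ) : ℝ :=
  ((n : ℝ) ^ 2 + 2 * ((n : ℝ) + 1) * η) / (2 * ((n : ℝ) / 2 - η))

lemma coefR_pos {n : ℕ} (hn : 0 < n) {η : ℝ} (hη0 : 0 ≤ η) (hη : η < (n : ℝ) / 2) :
    0 < coefR n η := by
  have hnR : (0 : ℝ) < n := Nat.cast_pos.2 hn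
  exact div_pos (by positivity) (by linarith)

lemma gauss_pos (t : ℝ) : 0 < gauss t := by
  refine mul_pos (by positivity) ?_
  exact intervalIntegral.intervalIntegral_pos_of_pos
    (Continuous.intervalIntegrable (by fun_prop) _ _) (fun θ => Real.exp_pos _) Real.pi_pos

lemma spontMag_bound {n : ℕ} (hn : 0 < n) {β h η : ℝ} (hβ : 0 < β) (hh : 0 < h)
    (hη0 : 0 ≤ η) (hη : η < (n : ℝ) / 2) (J : ℕ) :
    min η ((2 * ((n : ℝ) / 2 - η) / n) * ∑ i ∈ Finset.range J,
      Real.exp (-((i : ℝ) + 1) * (β * h)) * gauss (((i : ℝ) + 1) * β * coefR n η) ^ 3)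
      ≤ (n : ℝ) / 2 - spontMag n β := by
  set F : ℕ → ℝ := fun N => min η ((2 * ((n : ℝ) / 2 - η) / n) * ∑ i ∈ Finset.range J,
      Real.exp (-((i : ℝ) + 1) * (β * h)) *
        (gauss (((i : ℝ) + 1) * β * coefR n η) - 1 / (2 * N + 1 : ℕ)) ^ 3) with hF
  have hinv : Tendsto (fun N : ℕ => (1 : ℝ) / (2 * N + 1 : ℕ)) atTop (𝓝 0) :=
    tendsto_one_div_atTop_nhds_zero_nat.comp
      (tendsto_atTop_mono (fun N => (by omega : N ≤ 2 * N + 1)) tendsto_id)
  have hlimF : Tendsto F atTop (𝓝 (min η ((2 * ((n : ℝ) / 2 - η) / n) * ∑ i ∈ Finset.range J,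
      Real.exp (-((i : ℝ) + 1) * (β * h)) * gauss (((i : ℝ) + 1) * β * coefR n η) ^ 3))) := by
    refine Filter.Tendsto.min tendsto_const_nhds (Filter.Tendsto.const_mul _
      (tendsto_finsetSum _ fun i _ => Filter.Tendsto.const_mul _ (Filter.Tendsto.pow ?_ 3)))
    simpa using hinv.const_sub (gauss (((i : ℝ) + 1) * β * coefR n η))
  have hpos : ∀ᶠ N : ℕ in atTop, ∀ i ∈ Finset.range J,
      (0 : ℝ) ≤ gauss (((i : ℝ) + 1) * β * coefR n η) - 1 / (2 * N + 1 : ℕ) := by
    rw [Finset.eventually_all]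
    intro i _
    exact (hinv.eventually_le_const (gauss_pos _)).mono fun N hN => sub_nonneg.2 hN
  have hlimS := ((pressure_exists n hβ h).sub (pressure_exists n hβ 0)).div_const h
  have key : min η ((2 * ((n : ℝ) / 2 - η) / n) * ∑ i ∈ Finset.range J,
      Real.exp (-((i : ℝ) + 1) * (β * h)) * gauss (((i : ℝ) + 1) * β * coefR n η) ^ 3)
      + (pressure n β h - pressure n β 0) / h ≤ (n : ℝ) / 2 := by
    refine le_of_tendsto (hlimF.add hlimS) (hpos.mono fun N hN => ?_)
    have b := box_bound hn hβ hh hη0 hη J hN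
    have g := finite_subgradient n N hβ h 0
    have g' : (finitePressure n N β h - finitePressure n N β 0) / h
        ≤ totalMag n N β h / (((2 * N + 1 : ℕ) : ℝ) ^ 3) := by
      rw [div_le_iff₀ hh]; linarith
    simp only [hF, coefR]
    linarith
  linarith [spontMag_le_slope n hβ hh]

lemma gauss_asymp : Tendsto (fun t => gauss t * Real.sqrt t) atTop
    (𝓝 (1 / Real.sqrt (2 * Real.pi))) := by
  have hint : MeasureTheory.IntegrableOn (fun u : ℝ => Real.exp (-(1 / 2) * u ^ 2))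
      (Set.Ioi 0) MeasureTheory.volume :=
    (integrable_exp_neg_mul_sq (by norm_num : (0 : ℝ) < 1 / 2)).integrableOn
  have hb : Tendsto (fun t : ℝ => Real.pi * Real.sqrt t) atTop atTop :=
    Real.tendsto_sqrt_atTop.const_mul_atTop Real.pi_pos
  have hlim := (MeasureTheory.intervalIntegral_tendsto_integral_Ioi 0 hint hb).const_mul
    (1 / Real.pi)
  rw [integral_gaussian_Ioi (1 / 2)] at hlim
  have hconst : 1 / Real.pi * (Real.sqrt (Real.pi / (1 / 2)) / 2)
      = 1 / Real.sqrt (2 * Real.pi) := by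
    rw [show Real.pi / (1 / 2) = 2 * Real.pi by ring]
    have hs : Real.sqrt (2 * Real.pi) * Real.sqrt (2 * Real.pi) = 2 * Real.pi :=
      Real.mul_self_sqrt (by positivity)
    field_simp
    rw [mul_comm Real.pi 2]
    linear_combination hs
  rw [hconst] at hlim
  refine hlim.congr' ((eventually_gt_atTop (0 : ℝ)).mono fun t ht => ?_)
  have hs : 0 < Real.sqrt t := Real.sqrt_pos.2 ht
  have := intervalIntegral.integral_comp_mul_right (fun u => Real.exp (-(1 / 2) * u ^ 2))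
    (a := 0) (b := Real.pi) hs.ne'
  simp only [zero_mul, smul_eq_mul] at this
  have e : (∫ x in (0 : ℝ)..Real.pi, Real.exp (-(t * x ^ 2 / 2)))
      = ∫ x in (0 : ℝ)..Real.pi, Real.exp (-(1 / 2) * (x * Real.sqrt t) ^ 2) := by
    congr 1; funext x; congr 1
    rw [mul_pow, Real.sq_sqrt ht.le]; ring
  show 1 / Real.pi * _ = gauss t * Real.sqrt t
  rw [gauss, e, this]
  field_simp

lemma rpow_three_half {x : ℝ} (hx : 0 ≤ x) : x ^ (3 / 2 : ℝ) = Real.sqrt x ^ 3 := by
  rw [Real.sqrt_eq_rpow, ← Real.rpow_natCast (x ^ (1 / 2 : ℝ)) 3, ← Real.rpow_mul hx]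
  norm_num

/-- The asymptotic value of the finite-η, finite-J lower bound. -/
noncomputable def limitBound (n J : ℕ) (ε : ℝ) : ℝ :=
  (2 * ((n : ℝ) / 2 - ε) / n) * ∑ i ∈ Finset.range J,
    Real.exp (-((i : ℝ) + 1) * ε) *
      (1 / (Real.sqrt (((i : ℝ) + 1) * coefR n ε) * Real.sqrt (2 * Real.pi))) ^ 3

lemma gauss_scaled {a : ℝ} (ha : 0 < a) :
    Tendsto (fun β => Real.sqrt β * gauss (β * a)) atTop
      (𝓝 (1 / (Real.sqrt a * Real.sqrt (2 * Real.pi)))) := by
  have h1 := (gauss_asymp.comp (tendsto_id.atTop_mul_const ha)).div_const (Real.sqrt a)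
  have e : 1 / Real.sqrt (2 * Real.pi) / Real.sqrt a
      = 1 / (Real.sqrt a * Real.sqrt (2 * Real.pi)) := by
    rw [div_div, mul_comm (Real.sqrt (2 * Real.pi))]
  rw [e] at h1
  refine h1.congr' ((eventually_ge_atTop (0 : ℝ)).mono fun β hβ => ?_)
  have hsa : Real.sqrt a ≠ 0 := (Real.sqrt_pos.2 ha).ne'
  simp only [Function.comp_apply, id]
  rw [Real.sqrt_mul hβ]
  field_simp

lemma eventually_bound {n : ℕ} (hn : 0 < n) {ε c : ℝ} (hε : 0 < ε) (hεn : ε < (n : ℝ) / 2) (J : ℕ)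
    (hc : c < limitBound n J ε) :
    ∀ᶠ β in atTop, c < β ^ (3 / 2 : ℝ) * ((n : ℝ) / 2 - spontMag n β) := by
  have hR := coefR_pos hn hε.le hεn
  have hlim : Tendsto (fun β => (2 * ((n : ℝ) / 2 - ε) / n) * ∑ i ∈ Finset.range J,
      Real.exp (-((i : ℝ) + 1) * ε) *
        (Real.sqrt β * gauss (β * (((i : ℝ) + 1) * coefR n ε))) ^ 3) atTop
      (𝓝 (limitBound n J ε)) := by
    refine Filter.Tendsto.const_mul _ (tendsto_finsetSum _ fun i _ =>
      Filter.Tendsto.const_mul _ (Filter.Tendsto.pow (gauss_scaled ?_) 3))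
    positivity
  have h2 : Tendsto (fun β : ℝ => β ^ (3 / 2 : ℝ) * ε) atTop atTop :=
    (tendsto_rpow_atTop (by norm_num)).atTop_mul_const hε
  filter_upwards [hlim.eventually_const_lt hc, h2.eventually_gt_atTop c, eventually_gt_atTop 0]
    with β h1 h3 hβ
  have b := spontMag_bound hn hβ (div_pos hε hβ) hε.le hεn J
  rw [mul_div_cancel₀ ε hβ.ne'] at b
  have hp : 0 ≤ β ^ (3 / 2 : ℝ) := (Real.rpow_pos_of_pos hβ _).le
  refine lt_of_lt_of_le ?_ (mul_le_mul_of_nonneg_left b hp)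
  rw [mul_min_of_nonneg _ _ hp]
  refine lt_min h3 (lt_of_lt_of_le h1 (le_of_eq ?_))
  rw [rpow_three_half hβ.le, mul_left_comm (Real.sqrt β ^ 3)]
  congr 1
  rw [Finset.mul_sum]
  refine Finset.sum_congr rfl fun i _ => ?_
  rw [mul_pow, mul_left_comm (Real.exp _)]
  congr 3
  ring

/-- ζ(3/2). -/
noncomputable def zeta32 : ℝ := ∑' k : ℕ, 1 / ((k : ℝ) + 1) ^ (3 / 2 : ℝ)

lemma zeta32_hasSum : HasSum (fun k : ℕ => 1 / ((k : ℝ) + 1) ^ (3 / 2 : ℝ)) zeta32 := by
  refine Summable.hasSum ?_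
  have h := (summable_nat_add_iff (f := fun k : ℕ => 1 / (k : ℝ) ^ (3 / 2 : ℝ)) 1).2
    (Real.summable_one_div_nat_rpow.2 (by norm_num))
  refine h.congr fun k => ?_
  push_cast
  rfl

theorem bloch_one_sided {n : ℕ} (hn : 0 < n) :
    ∀ c < zeta32 / (8 * Real.pi ^ (3 / 2 : ℝ) * ((n : ℝ) / 2) ^ (3 / 2 : ℝ)),
      ∀ᶠ β in atTop, c < β ^ (3 / 2 : ℝ) * ((n : ℝ) / 2 - spontMag n β) := by
  intro c hc
  have hnR : (0 : ℝ) < n := Nat.cast_pos.2 hn
  have hD : 0 < 8 * Real.pi ^ (3 / 2 : ℝ) * ((n : ℝ) / 2) ^ (3 / 2 : ℝ) := by positivity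
  rw [lt_div_iff₀ hD] at hc
  obtain ⟨J, hJ⟩ := (zeta32_hasSum.tendsto_sum_nat.eventually_const_lt hc).exists
  have h0 : limitBound n J 0 * (8 * Real.pi ^ (3 / 2 : ℝ) * ((n : ℝ) / 2) ^ (3 / 2 : ℝ))
      = ∑ i ∈ Finset.range J, 1 / ((i : ℝ) + 1) ^ (3 / 2 : ℝ) := by
    rw [limitBound, Finset.mul_sum, Finset.sum_mul]
    refine Finset.sum_congr rfl fun i _ => ?_
    have hi : (0 : ℝ) < (i : ℝ) + 1 := by positivity
    have e1 : coefR n 0 = n := by simp [coefR]; field_simp
    rw [e1, rpow_three_half Real.pi_pos.le, rpow_three_half (by positivity),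
      rpow_three_half hi.le, Real.sqrt_mul hi.le, Real.sqrt_mul zero_le_two,
      Real.sqrt_div hnR.le]
    have h2 : Real.sqrt 2 ^ 2 = 2 := Real.sq_sqrt zero_le_two
    have s2 : Real.sqrt 2 ≠ 0 := by positivity
    have sp : Real.sqrt Real.pi ≠ 0 := by positivity
    have sn : Real.sqrt (n : ℝ) ≠ 0 := by positivity
    have si : Real.sqrt ((i : ℝ) + 1) ≠ 0 := by positivity
    simp only [mul_zero, Real.exp_zero, sub_zero, one_mul]
    field_simp
    linear_combination (-(Real.sqrt 2 ^ 4 + 2 * Real.sqrt 2 ^ 2 + 4)) * h2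
  have hc0 : c < limitBound n J 0 := by
    rw [← h0] at hJ
    exact lt_of_mul_lt_mul_right hJ hD.le
  have hcont : ContinuousAt (limitBound n J) 0 := by
    have hne : 2 * ((n : ℝ) / 2 - 0) ≠ 0 := by simp [hnR.ne']
    have hR : ContinuousAt (coefR n) 0 := by
      unfold coefR
      exact ContinuousAt.div (by fun_prop) (by fun_prop) hne
    unfold limitBound
    refine ContinuousAt.mul (by fun_prop) (tendsto_finsetSum _ fun i _ =>
      (ContinuousAt.mul (by fun_prop) (ContinuousAt.pow (ContinuousAt.div continuousAt_const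
        (ContinuousAt.mul (Real.continuous_sqrt.continuousAt.comp
          (continuousAt_const.mul hR)) continuousAt_const) ?_) 3)))
    have : 0 < coefR n 0 := coefR_pos hn le_rfl (by positivity)
    show Real.sqrt (((i : ℝ) + 1) * coefR n 0) * Real.sqrt (2 * Real.pi) ≠ 0
    positivity
  have hev : ∀ᶠ ε in 𝓝[>] (0 : ℝ), c < limitBound n J ε ∧ 0 < ε ∧ ε < (n : ℝ) / 2 := by
    refine Filter.Eventually.and ((hcont.eventually_const_lt hc0).filter_mono nhdsWithin_le_nhds)
      (Filter.Eventually.and eventually_mem_nhdsWithin ?_)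
    exact (eventually_lt_nhds (by positivity : (0 : ℝ) < (n : ℝ) / 2)).filter_mono
      nhdsWithin_le_nhds
  obtain ⟨ε, h1, h2, h3⟩ := hev.exists
  exact eventually_bound hn h2 h3 J h1

end Vale.Agent.P361
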