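import Vale.Agent.P361.Basic
import Vale.Agent.P361.Gibbs

/-!
Spin algebra on a finite graph and the double-commutator bound.
-/

namespace Vale.Agent.P361

open scoped Matrix BigOperators
open Matrix

/-- Commutator. -/
def cm {R : Type*} [Ring R] (a b : R) : R := a * b - b * a

section Local

variable (n : ℕ)

lemma spinUp_apply (i j : Fin (n + 1)) :
    spinUp n i j = if (i : ℕ) + 1 = (j : ℕ) then
      ((Real.sqrt ((j : ℕ) * ((n : ℝ) + 1 - (j : ℕ))) : ℝ) : ℂ) else 0 := rfl

lemma spinDown_apply (i j : Fin (n + 1)) :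
    spinDown n i j = if (j : ℕ) + 1 = (i : ℕ) then
      ((Real.sqrt ((i : ℕ) * ((n : ℝ) + 1 - (i : ℕ))) : ℝ) : ℂ) else 0 := by
  simp only [spinDown, Matrix.conjTranspose_apply, spinUp_apply]
  split_ifs <;> simp

lemma sq_nonneg' (j : Fin (n + 1)) : (0 : ℝ) ≤ (j : ℕ) * ((n : ℝ) + 1 - (j : ℕ)) := by
  have : ((j : ℕ) : ℝ) ≤ n + 1 := by exact_mod_cast j.isLt.le
  exact mul_nonneg (Nat.cast_nonneg _) (by linarith)

lemma up_mul_down : spinUp n * spinDown n =
    diagonal fun i : Fin (n + 1) => (((((i : ℕ) : ℝ) + 1) * ((n : ℝ) - (i : ℕ)) : ℝ) : ℂ) := by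
  ext i k
  rw [Matrix.mul_apply]
  by_cases hi : (i : ℕ) < n
  · rw [Finset.sum_eq_single (⟨(i : ℕ) + 1, by omega⟩ : Fin (n + 1))]
    · by_cases hik : i = k
      · subst hik
        simp only [spinUp_apply, spinDown_apply, if_true, diagonal_apply_eq, ← Complex.ofReal_mul]
        rw [Real.mul_self_sqrt]
        · push_cast
          ring
        · exact sq_nonneg' n ⟨(i : ℕ) + 1, by omega⟩
      · have : (k : ℕ) ≠ (i : ℕ) := fun h => hik (Fin.ext h.symm)
        simp [spinUp_apply, spinDown_apply, hik, this]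
    · intro j _ hj
      have : (i : ℕ) + 1 ≠ (j : ℕ) := fun h => hj (Fin.ext h.symm)
      simp [spinUp_apply, this]
    · simp
  · have hin : (i : ℕ) = n := by omega
    rw [Finset.sum_eq_zero]
    · by_cases hik : i = k
      · subst hik; simp [hin]
      · simp [hik]
    · intro j _
      have : (i : ℕ) + 1 ≠ (j : ℕ) := by omega
      simp [spinUp_apply, this]

lemma down_mul_up : spinDown n * spinUp n =
    diagonal fun i : Fin (n + 1) => (((((i : ℕ) : ℝ)) * ((n : ℝ) + 1 - (i : ℕ)) : ℝ) : ℂ) := by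
  ext i k
  rw [Matrix.mul_apply]
  by_cases hi : 0 < (i : ℕ)
  · rw [Finset.sum_eq_single (⟨(i : ℕ) - 1, by omega⟩ : Fin (n + 1))]
    · have e : (i : ℕ) - 1 + 1 = (i : ℕ) := by omega
      by_cases hik : i = k
      · subst hik
        simp only [spinUp_apply, spinDown_apply, e, if_true, diagonal_apply_eq,
          ← Complex.ofReal_mul]
        rw [Real.mul_self_sqrt (sq_nonneg' n _)]
      · have : (i : ℕ) ≠ (k : ℕ) := fun h => hik (Fin.ext h)
        simp [spinUp_apply, spinDown_apply, hik, e, this]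
    · intro j _ hj
      have : (j : ℕ) + 1 ≠ (i : ℕ) := fun h => hj (Fin.ext (by simp only; omega))
      simp [spinDown_apply, this]
    · simp
  · have hin : (i : ℕ) = 0 := by omega
    rw [Finset.sum_eq_zero]
    · by_cases hik : i = k
      · subst hik; simp [hin]
      · simp [hik]
    · intro j _
      have : (j : ℕ) + 1 ≠ (i : ℕ) := by omega
      simp [spinDown_apply, this]

lemma cm_up_down : cm (spinUp n) (spinDown n) = (2 : ℂ) • spinZ n := by
  ext i k
  rw [cm, up_mul_down, down_mul_up]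
  by_cases h : i = k
  · subst h
    simp [spinZ]
    ring
  · simp [spinZ, h]

lemma cm_up_Z : cm (spinUp n) (spinZ n) = -spinUp n := by
  ext i k
  simp only [cm, spinZ, Matrix.sub_apply, Matrix.mul_diagonal, Matrix.diagonal_mul,
    Matrix.neg_apply, spinUp_apply]
  split_ifs with h
  · rw [← h]
    push_cast
    ring
  · simp

lemma spinZ_conjTranspose : (spinZ n)ᴴ = spinZ n := by
  simp [spinZ, Matrix.diagonal_conjTranspose, Pi.star_def, Complex.conj_ofReal]

lemma cm_Z_down : cm (spinZ n) (spinDown n) = -spinDown n := by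
  have := congrArg Matrix.conjTranspose (cm_up_Z n)
  simpa [cm, spinDown, spinZ_conjTranspose] using this

end Local

variable {Λ : Type*} [Fintype Λ] [DecidableEq Λ] {n : ℕ}

lemma siteOp_mul_apply (x : Λ) (A : Matrix (Fin (n + 1)) (Fin (n + 1)) ℂ)
    (M : Matrix (Config Λ n) (Config Λ n) ℂ) (σ τ : Config Λ n) :
    (siteOp x A * M) σ τ = ∑ k, A (σ x) k * M (Function.update σ x k) τ := by
  rw [Matrix.mul_apply]
  refine (Fintype.sum_of_injective (fun k => Function.update σ x k)
    (Function.update_injective σ x) _ _ ?_ ?_).symm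
  · intro ρ hρ
    have h : ¬ ∀ y, y ≠ x → σ y = ρ y := by
      intro h
      apply hρ
      exact ⟨ρ x, Function.update_eq_iff.2 ⟨rfl, h⟩⟩
    simp [siteOp, h]
  · intro k
    simp +contextual [siteOp]

lemma siteOp_mul (x : Λ) (A B : Matrix (Fin (n + 1)) (Fin (n + 1)) ℂ) :
    siteOp x A * siteOp x B = siteOp x (A * B) := by
  ext σ τ
  rw [siteOp_mul_apply]
  simp +contextual only [siteOp, ne_eq, Function.update_self, Matrix.mul_apply]
  split_ifs with h
  · refine Finset.sum_congr rfl fun k _ => ?_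
    rw [if_pos]
    intro y hy
    rw [Function.update_of_ne hy]
    exact h y hy
  · refine Finset.sum_eq_zero fun k _ => ?_
    rw [if_neg, mul_zero]
    intro h'
    apply h
    intro y hy
    have := h' y hy
    rwa [Function.update_of_ne hy] at this

lemma siteOp_pair_apply {x y : Λ} (hxy : x ≠ y) (A B : Matrix (Fin (n + 1)) (Fin (n + 1)) ℂ)
    (σ τ : Config Λ n) :
    (siteOp x A * siteOp y B) σ τ =
      if ∀ z, z ≠ x → z ≠ y → σ z = τ z then A (σ x) (τ x) * B (σ y) (τ y) else 0 := by
  rw [siteOp_mul_apply, Finset.sum_eq_single (τ x)]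
  · simp only [siteOp, Function.update_of_ne hxy.symm]
    have e : (∀ z, z ≠ y → Function.update σ x (τ x) z = τ z) ↔
        ∀ z, z ≠ x → z ≠ y → σ z = τ z := by
      constructor
      · intro h z h1 h2
        simpa [h1] using h z h2
      · intro h z h2
        by_cases h1 : z = x
        · subst h1; simp
        · simpa [h1] using h z h1 h2
    simp only [e]
    split_ifs <;> simp
  · intro k _ hk
    have : ¬ ∀ z, z ≠ y → Function.update σ x k z = τ z := fun h => hk (by simpa using h x hxy)
    simp [siteOp, this]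
  · simp

lemma siteOp_comm {x y : Λ} (hxy : x ≠ y) (A B : Matrix (Fin (n + 1)) (Fin (n + 1)) ℂ) :
    siteOp x A * siteOp y B = siteOp y B * siteOp x A := by
  ext σ τ
  rw [siteOp_pair_apply hxy, siteOp_pair_apply hxy.symm]
  have e : (∀ z, z ≠ x → z ≠ y → σ z = τ z) ↔ (∀ z, z ≠ y → z ≠ x → σ z = τ z) :=
    ⟨fun h z a b => h z b a, fun h z a b => h z b a⟩
  simp only [e, mul_comm]

lemma siteOp_add (x : Λ) (A B : Matrix (Fin (n + 1)) (Fin (n + 1)) ℂ) :
    siteOp x (A + B) = siteOp x A + siteOp x B := by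
  ext σ τ; simp only [siteOp, Matrix.add_apply]; split_ifs <;> simp

lemma siteOp_sub (x : Λ) (A B : Matrix (Fin (n + 1)) (Fin (n + 1)) ℂ) :
    siteOp x (A - B) = siteOp x A - siteOp x B := by
  ext σ τ; simp only [siteOp, Matrix.sub_apply]; split_ifs <;> simp

lemma siteOp_neg (x : Λ) (A : Matrix (Fin (n + 1)) (Fin (n + 1)) ℂ) :
    siteOp x (-A) = -siteOp x A := by
  ext σ τ; simp only [siteOp, Matrix.neg_apply]; split_ifs <;> simp

lemma siteOp_smul (x : Λ) (c : ℂ) (A : Matrix (Fin (n + 1)) (Fin (n + 1)) ℂ) :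
    siteOp x (c • A) = c • siteOp x A := by
  ext σ τ; simp only [siteOp, Matrix.smul_apply]; split_ifs <;> simp

lemma siteOp_conjTranspose (x : Λ) (A : Matrix (Fin (n + 1)) (Fin (n + 1)) ℂ) :
    (siteOp x A)ᴴ = siteOp x Aᴴ := by
  ext σ τ
  simp only [siteOp, Matrix.conjTranspose_apply]
  have e : (∀ y, y ≠ x → τ y = σ y) ↔ (∀ y, y ≠ x → σ y = τ y) :=
    ⟨fun h y a => (h y a).symm, fun h y a => (h y a).symm⟩
  simp only [e]
  split_ifs <;> simp

lemma siteOp_diagonal (x : Λ) (d : Fin (n + 1) → ℂ) :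
    siteOp x (diagonal d) = diagonal fun σ : Config Λ n => d (σ x) := by
  ext σ τ
  by_cases h : σ = τ
  · subst h; simp [siteOp]
  · simp only [siteOp, Matrix.diagonal_apply_ne _ h]
    split_ifs with h'
    · apply Matrix.diagonal_apply_ne
      intro hx
      apply h
      funext y
      by_cases hy : y = x
      · subst hy; exact hx
      · exact h' y hy
    · rfl

/-- Abbreviations for the three kinds of site operators. -/
noncomputable abbrev opU (n : ℕ) (x : Λ) := siteOp (n := n) x (spinUp n)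
noncomputable abbrev opD (n : ℕ) (x : Λ) := siteOp (n := n) x (spinDown n)
noncomputable abbrev opZ (n : ℕ) (x : Λ) := siteOp (n := n) x (spinZ n)

lemma cm_site (x : Λ) (A B : Matrix (Fin (n + 1)) (Fin (n + 1)) ℂ) :
    cm (siteOp x A) (siteOp x B) = siteOp x (cm A B) := by
  simp [cm, siteOp_mul, siteOp_sub]

lemma cm_site_ne {x y : Λ} (h : x ≠ y) (A B : Matrix (Fin (n + 1)) (Fin (n + 1)) ℂ) :
    cm (siteOp x A) (siteOp y B) = 0 := by
  simp [cm, siteOp_comm h]

lemma exchange_eq {x y : Λ} : exchange n x y =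
    (1 / 2 : ℂ) • (opU n x * opD n y + opD n x * opU n y) + opZ n x * opZ n y := by
  simp only [exchange, spinX, spinY, siteOp_smul, siteOp_add, siteOp_sub, opU, opD, opZ,
    smul_mul_assoc, mul_smul_comm, smul_add, smul_sub, smul_smul, add_mul, mul_add, sub_mul,
    mul_sub]
  have h1 : (-(Complex.I / 2)) * (-(Complex.I / 2)) = -(1 / 4 : ℂ) := by
    linear_combination (1 / 4 : ℂ) * Complex.I_mul_I
  rw [h1]
  module

lemma exchange_isHermitian {x y : Λ} (h : x ≠ y) : (exchange n x y).IsHermitian := by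
  unfold Matrix.IsHermitian
  rw [exchange_eq]
  simp only [opU, opD, opZ, Matrix.conjTranspose_add, Matrix.conjTranspose_smul,
    Matrix.conjTranspose_mul, siteOp_conjTranspose, spinZ_conjTranspose, spinDown,
    Matrix.conjTranspose_conjTranspose, siteOp_comm h.symm]
  congr 1
  rw [add_comm]
  simp

lemma magnetization_isHermitian : (magnetization (Λ := Λ) n).IsHermitian := by
  simp [Matrix.IsHermitian, magnetization, Matrix.conjTranspose_sum, siteOp_conjTranspose,
    spinZ_conjTranspose]

lemma hamiltonian_isHermitian {adj : Λ → Λ → Prop} (hirr : ∀ x, ¬ adj x x) :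
    (hamiltonian n adj).IsHermitian := by
  classical
  unfold Matrix.IsHermitian hamiltonian
  rw [Matrix.conjTranspose_smul, Matrix.conjTranspose_sum]
  congr 1
  · simp
  · refine Finset.sum_congr rfl fun x _ => ?_
    rw [Matrix.conjTranspose_sum]
    refine Finset.sum_congr rfl fun y _ => ?_
    split_ifs with h
    · exact exchange_isHermitian (fun e => hirr x (e ▸ h))
    · simp

/-- A weighted sum of raising operators. -/
noncomputable def wave (n : ℕ) (a : Λ → ℂ) : Matrix (Config Λ n) (Config Λ n) ℂ :=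
  ∑ x, a x • opU n x

lemma wave_conjTranspose (a : Λ → ℂ) : (wave n a)ᴴ = ∑ x, star (a x) • opD n x := by
  simp [wave, Matrix.conjTranspose_sum, Matrix.conjTranspose_smul, siteOp_conjTranspose, opU, opD,
    spinDown]

section Ring

variable {ι : Type*} [Fintype ι] [DecidableEq ι]

lemma cm_sum_left {α : Type*} (s : Finset α) (f : α → Matrix ι ι ℂ) (b : Matrix ι ι ℂ) :
    cm (∑ i ∈ s, f i) b = ∑ i ∈ s, cm (f i) b := by
  simp [cm, Finset.sum_mul, Finset.mul_sum, Finset.sum_sub_distrib]

lemma cm_sum_right {α : Type*} (s : Finset α) (f : α → Matrix ι ι ℂ) (b : Matrix ι ι ℂ) :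
    cm b (∑ i ∈ s, f i) = ∑ i ∈ s, cm b (f i) := by
  simp [cm, Finset.sum_mul, Finset.mul_sum, Finset.sum_sub_distrib]

lemma cm_smul_left (c : ℂ) (a b : Matrix ι ι ℂ) : cm (c • a) b = c • cm a b := by
  simp [cm, smul_sub]

lemma cm_smul_right (c : ℂ) (a b : Matrix ι ι ℂ) : cm a (c • b) = c • cm a b := by
  simp [cm, smul_sub]

lemma cm_add_left (a b c : Matrix ι ι ℂ) : cm (a + b) c = cm a c + cm b c := by
  simp [cm, add_mul, mul_add]; abel

lemma cm_sub_left (a b c : Matrix ι ι ℂ) : cm (a - b) c = cm a c - cm b c := by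
  simp [cm, sub_mul, mul_sub]; abel

lemma cm_add_right (a b c : Matrix ι ι ℂ) : cm a (b + c) = cm a b + cm a c := by
  simp [cm, add_mul, mul_add]; abel

lemma cm_mul_right (a b c : Matrix ι ι ℂ) : cm a (b * c) = cm a b * c + b * cm a c := by
  simp only [cm]; noncomm_ring

lemma cm_mul_left (a b c : Matrix ι ι ℂ) : cm (a * b) c = a * cm b c + cm a c * b := by
  simp only [cm]; noncomm_ring

lemma cm_zero_left (a : Matrix ι ι ℂ) : cm 0 a = 0 := by simp [cm]

lemma sum_two {x y : ι} (hxy : x ≠ y) {M : Type*} [AddCommMonoid M] (f : ι → M)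
    (h : ∀ z, z ≠ x → z ≠ y → f z = 0) : ∑ z, f z = f x + f y := by
  rw [← Finset.sum_pair hxy]
  refine (Finset.sum_subset (Finset.subset_univ _) fun z _ hz => ?_).symm
  simp only [Finset.mem_insert, Finset.mem_singleton, not_or] at hz
  exact h z hz.1 hz.2

end Ring

lemma cm_wave_wave (a : Λ → ℂ) :
    cm (wave n a) (wave n a)ᴴ = ∑ x, (2 * Complex.normSq (a x) : ℂ) • opZ n x := by
  rw [wave_conjTranspose, wave, cm_sum_left]
  refine Finset.sum_congr rfl fun x _ => ?_
  rw [cm_sum_right, Finset.sum_eq_single x]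
  · rw [cm_smul_left, cm_smul_right, smul_smul, cm_site, cm_up_down, siteOp_smul, smul_smul]
    congr 1
    rw [Complex.star_def, Complex.mul_conj]
    ring
  · intro y _ hy
    simp [cm_smul_left, cm_smul_right, cm_site_ne hy.symm]
  · simp

lemma cm_wave_magnetization (a : Λ → ℂ) : cm (wave n a) (magnetization n) = -wave n a := by
  rw [wave, magnetization, cm_sum_left, ← Finset.sum_neg_distrib]
  refine Finset.sum_congr rfl fun x _ => ?_
  rw [cm_sum_right, Finset.sum_eq_single x]
  · rw [cm_smul_left, cm_site, cm_up_Z, siteOp_neg, smul_neg]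
  · intro y _ hy
    simp [cm_smul_left, cm_site_ne hy.symm]
  · simp

lemma cm_up_exchange {x y : Λ} (hxy : x ≠ y) :
    cm (opU n x) (exchange n x y) = opZ n x * opU n y - opU n x * opZ n y := by
  have h0 : cm (spinUp n) (spinUp n) = 0 := by simp [cm]
  rw [exchange_eq, cm_add_right, cm_smul_right, cm_add_right, cm_mul_right, cm_mul_right,
    cm_mul_right]
  simp only [opU, opD, opZ, cm_site, cm_site_ne hxy, h0, cm_up_down, cm_up_Z, siteOp_smul,
    siteOp_neg]
  have hz : siteOp (Λ := Λ) (n := n) x 0 = 0 := by ext σ τ; simp [siteOp]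
  simp only [hz, zero_mul, mul_zero, add_zero, zero_add, smul_mul_assoc, neg_mul]
  module

lemma exchange_swap {x y : Λ} (hxy : x ≠ y) : exchange (n := n) x y = exchange n y x := by
  simp only [exchange, siteOp_comm hxy]

lemma cm_wave_exchange (a : Λ → ℂ) {x y : Λ} (hxy : x ≠ y) :
    cm (wave n a) (exchange n x y) =
      (a x - a y) • (opZ n x * opU n y - opU n x * opZ n y) := by
  rw [wave, cm_sum_left, sum_two hxy]
  · have e := cm_up_exchange (n := n) hxy.symm
    rw [← exchange_swap hxy] at e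
    rw [cm_smul_left, cm_smul_left, cm_up_exchange hxy, e]
    simp only [opU, opD, opZ, siteOp_comm hxy.symm]
    module
  · intro z hzx hzy
    rw [cm_smul_left, exchange_eq, cm_add_right, cm_smul_right, cm_add_right, cm_mul_right,
      cm_mul_right, cm_mul_right]
    simp [opU, opD, opZ, cm_site_ne hzx, cm_site_ne hzy]

lemma cm_cm_wave_exchange (a : Λ → ℂ) {x y : Λ} (hxy : x ≠ y) :
    cm (cm (wave n a) (exchange n x y)) (wave n a)ᴴ =
      ((a x - a y) * -star (a x)) • (opD n x * opU n y + (2 : ℂ) • (opZ n x * opZ n y))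
      + ((a x - a y) * star (a y)) • (opU n x * opD n y + (2 : ℂ) • (opZ n x * opZ n y)) := by
  rw [cm_wave_exchange a hxy, cm_smul_left, wave_conjTranspose, cm_sum_right, sum_two hxy]
  · simp only [cm_smul_right, cm_sub_left, cm_mul_left, opU, opD, opZ, cm_site,
      cm_site_ne hxy, cm_site_ne hxy.symm, cm_up_down, cm_Z_down, siteOp_smul, siteOp_neg,
      zero_mul, mul_zero, add_zero, zero_add, smul_mul_assoc, mul_smul_comm, neg_mul, mul_neg]
    module
  · intro z hzx hzy
    simp [cm_smul_right, cm_sub_left, cm_mul_left, opU, opD, opZ, cm_site_ne (Ne.symm hzx),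
      cm_site_ne (Ne.symm hzy)]

/-- The two conjugate phase choices together give a real multiple. -/
lemma cm_cm_pair (a : Λ → ℂ) {x y : Λ} (hxy : x ≠ y)
    (hax : Complex.normSq (a x) = 1) (hay : Complex.normSq (a y) = 1) :
    cm (cm (wave n a) (exchange n x y)) (wave n a)ᴴ
      + cm (cm (wave n (star a)) (exchange n x y)) (wave n (star a))ᴴ =
      -((Complex.normSq (a x - a y) : ℂ) •
        (opD n x * opU n y + opU n x * opD n y + ((4 : ℝ) : ℂ) • (opZ n x * opZ n y))) := by
  rw [cm_cm_wave_exchange a hxy, cm_cm_wave_exchange (star a) hxy]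
  have hx' : a x * star (a x) = 1 := by rw [Complex.star_def, Complex.mul_conj, hax]; simp
  have hy' : a y * star (a y) = 1 := by rw [Complex.star_def, Complex.mul_conj, hay]; simp
  have hn : (Complex.normSq (a x - a y) : ℂ) = 2 - a x * star (a y) - star (a x) * a y := by
    rw [← Complex.mul_conj, map_sub]
    simp only [← Complex.star_def]
    linear_combination hx' + hy'
  have c1 : (a x - a y) * -star (a x) + (star (a x) - star (a y)) * -(a x)
      = -(Complex.normSq (a x - a y) : ℂ) := by
    rw [hn]; linear_combination (-2 : ℂ) * hx'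
  have c2 : (a x - a y) * star (a y) + (star (a x) - star (a y)) * a y
      = -(Complex.normSq (a x - a y) : ℂ) := by
    rw [hn]; linear_combination (-2 : ℂ) * hy'
  simp only [Pi.star_apply, star_star]
  calc _ = ((a x - a y) * -star (a x) + (star (a x) - star (a y)) * -(a x)) •
          (opD n x * opU n y + (2 : ℂ) • (opZ n x * opZ n y))
        + ((a x - a y) * star (a y) + (star (a x) - star (a y)) * a y) •
          (opU n x * opD n y + (2 : ℂ) • (opZ n x * opZ n y)) := by module
    _ = _ := by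
      rw [c1, c2]
      push_cast
      module

end Vale.Agent.P361
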